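import Crest.Agent.R350.Defs

/-! Row 350, part F1: Chebyshev's inequality for finite product weights. -/

set_option autoImplicit false
open Finset Function

namespace Crest.Agent.R350

namespace Ch

variable {C Ω : Type} [Fintype C] [DecidableEq C] [Fintype Ω]

lemma exp_prod (p : C → Ω → ℝ) (f : C → Ω → ℝ) :
    ∑ ω : C → Ω, (∏ c, p c (ω c)) * ∏ c, f c (ω c) = ∏ c, ∑ o, p c o * f c o := by
  rw [Finset.prod_univ_sum, Fintype.piFinset_univ]
  exact sum_congr rfl fun ω _ => by rw [prod_mul_distrib]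

lemma exp_pair (p Y : C → Ω → ℝ) (hp1 : ∀ c, ∑ o, p c o = 1)
    (hY : ∀ c, ∑ o, p c o * Y c o = 0) (hY2 : ∀ c, ∑ o, p c o * Y c o ^ 2 ≤ 1) (c₁ c₂ : C) :
    ∑ ω : C → Ω, (∏ c, p c (ω c)) * (Y c₁ (ω c₁) * Y c₂ (ω c₂)) ≤ if c₁ = c₂ then 1 else 0 := by
  have key := exp_prod p fun c o => (if c = c₁ then Y c o else 1) * (if c = c₂ then Y c o else 1)
  simp only [prod_mul_distrib, prod_ite_eq', mem_univ, if_true] at key
  rw [key]
  split_ifs with h
  · subst h
    rw [Finset.prod_eq_single c₁]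
    · simpa [sq] using hY2 c₁
    · intro c _ hc
      simp [hc, hp1]
    · simp
  · refine le_of_eq (prod_eq_zero (mem_univ c₁) ?_)
    simp [h, hY]

end Ch

/-- Union bound over `s` and Chebyshev: with `Y c o = X c o - ∑ o', p c o' * X c o'`,
`∑ ω, (∏ c, p c (ω c)) * (Y c₁ (ω c₁) * Y c₂ (ω c₂))` is `0` for `c₁ ≠ c₂` and `≤ 1` for `c₁ = c₂`
(`Finset.prod_univ_sum` with `Fintype.piFinset_univ`). -/
lemma cheb {S T Ω : Type} [Fintype S] [DecidableEq S] [Fintype T] [DecidableEq T] [Fintype Ω]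
    (p X : S × T → Ω → ℝ) (hp0 : ∀ c o, 0 ≤ p c o) (hp1 : ∀ c, ∑ o, p c o = 1)
    (hX : ∀ c o, |X c o| ≤ 1) {a : ℝ} (ha : 0 < a) (bad : (S × T → Ω) → Prop) [DecidablePred bad]
    (hbad : ∀ ω, bad ω → ∃ s, ∑ t, X (s, t) (ω (s, t)) + a ≤ ∑ t, ∑ o, p (s, t) o * X (s, t) o) :
    ∑ ω : S × T → Ω, (if bad ω then ∏ c, p c (ω c) else 0) ≤
      Fintype.card S * Fintype.card T / a ^ 2 := by
  set m : S × T → ℝ := fun c => ∑ o, p c o * X c o with hm
  set Y : S × T → Ω → ℝ := fun c o => X c o - m c with hYdef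
  have hY : ∀ c, ∑ o, p c o * Y c o = 0 := by
    intro c
    simp only [hYdef, mul_sub, sum_sub_distrib, ← sum_mul, hp1, one_mul, hm, sub_self]
  have hY2 : ∀ c, ∑ o, p c o * Y c o ^ 2 ≤ 1 := by
    intro c
    have h1 : ∑ o, p c o * Y c o ^ 2 = ∑ o, p c o * X c o ^ 2 - m c ^ 2 := by
      have : ∀ o, p c o * Y c o ^ 2 = p c o * X c o ^ 2 - 2 * m c * (p c o * X c o) + m c ^ 2 * p c o := by
        intro o; simp only [hYdef]; ring
      simp only [this, sum_add_distrib, sum_sub_distrib, ← mul_sum, hp1]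
      change _ - 2 * m c * m c + _ = _
      ring
    have h2 : ∑ o, p c o * X c o ^ 2 ≤ ∑ o, p c o := by
      refine sum_le_sum fun o _ => ?_
      have : X c o ^ 2 ≤ 1 := by rw [← sq_abs]; nlinarith [hX c o, abs_nonneg (X c o)]
      nlinarith [hp0 c o]
    rw [hp1] at h2
    nlinarith [sq_nonneg (m c)]
  have hw : ∀ ω : S × T → Ω, 0 ≤ ∏ c, p c (ω c) := fun ω => prod_nonneg fun c _ => hp0 c _
  have ha2 : 0 < a ^ 2 := by positivity
  have step : ∀ ω : S × T → Ω, (if bad ω then ∏ c, p c (ω c) else 0) ≤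
      (∑ s, (∏ c, p c (ω c)) * (∑ t, Y (s, t) (ω (s, t))) ^ 2) / a ^ 2 := by
    intro ω
    have hnn : ∀ s, 0 ≤ (∏ c, p c (ω c)) * (∑ t, Y (s, t) (ω (s, t))) ^ 2 := fun s =>
      mul_nonneg (hw ω) (sq_nonneg _)
    split_ifs with hb
    · obtain ⟨s, hs⟩ := hbad ω hb
      rw [le_div_iff₀ ha2]
      refine le_trans ?_ (single_le_sum (fun s _ => hnn s) (mem_univ s))
      refine mul_le_mul_of_nonneg_left ?_ (hw ω)
      have : ∑ t, Y (s, t) (ω (s, t)) ≤ -a := by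
        simp only [hYdef, sum_sub_distrib]
        change _ ≤ ∑ t, m (s, t) at hs
        linarith
      nlinarith
    · exact div_nonneg (sum_nonneg fun s _ => hnn s) ha2.le
  refine (sum_le_sum fun ω _ => step ω).trans ?_
  rw [← sum_div]
  refine div_le_div_of_nonneg_right ?_ ha2.le
  rw [sum_comm]
  have : ∀ s, ∑ ω : S × T → Ω, (∏ c, p c (ω c)) * (∑ t, Y (s, t) (ω (s, t))) ^ 2 ≤
      Fintype.card T := by
    intro s
    have e : ∀ ω : S × T → Ω, (∏ c, p c (ω c)) * (∑ t, Y (s, t) (ω (s, t))) ^ 2 =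
        ∑ t, ∑ t', (∏ c, p c (ω c)) * (Y (s, t) (ω (s, t)) * Y (s, t') (ω (s, t'))) := by
      intro ω
      rw [sq, sum_mul_sum, mul_sum]
      exact sum_congr rfl fun t _ => by rw [mul_sum]
    simp only [e]
    rw [sum_comm]
    simp only [sum_comm (s := (univ : Finset (S × T → Ω)))]
    refine (sum_le_sum fun t _ => sum_le_sum fun t' _ =>
      Ch.exp_pair p Y hp1 hY hY2 (s, t) (s, t')).trans ?_
    simp
  refine (sum_le_sum fun s _ => this s).trans ?_
  simp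

end Crest.Agent.R350
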