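import Crest.Agent.R350.Defs

/-! Row 350, part D0: the uniform measure on a cube and the latent Forrelation model. -/

set_option autoImplicit false
open Finset Function MeasureTheory

namespace Crest.Agent.R350

/-- uniform probability measure on `[-1, 1]` -/
noncomputable def unif : Measure ℝ := (2⁻¹ : ENNReal) • volume.restrict (Set.Icc (-1) 1)

instance : IsProbabilityMeasure unif := ⟨by
  simp only [unif, Measure.smul_apply, Measure.restrict_apply_univ, Real.volume_Icc, smul_eq_mul]
  rw [show (1 : ℝ) - -1 = 2 by norm_num, ENNReal.ofReal_ofNat]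
  exact ENNReal.inv_mul_cancel (by norm_num) (by norm_num)⟩

lemma unif_integral (g : ℝ → ℝ) : ∫ t, g t ∂unif = (∫ t in (-1 : ℝ)..1, g t) / 2 := by
  rw [unif, integral_smul_measure, intervalIntegral.integral_of_le (by norm_num),
    integral_Icc_eq_integral_Ioc]
  simp [div_eq_inv_mul]

/-- uniform probability measure on the cube `[-1, 1]^ι` -/
noncomputable def cube (ι : Type) [Fintype ι] : Measure (ι → ℝ) := Measure.pi fun _ => unif

section cube
variable {ι : Type} [Fintype ι]

instance : IsProbabilityMeasure (cube ι) := by unfold cube; infer_instance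

lemma unif_ae : ∀ᵐ t ∂unif, |t| ≤ 1 := by
  refine Measure.ae_smul_measure ?_ _
  filter_upwards [ae_restrict_mem measurableSet_Icc] with t ht using abs_le.2 ht

lemma cube_ae : ∀ᵐ θ ∂cube ι, ∀ i, |θ i| ≤ 1 :=
  ae_all_iff.2 fun i => (Measure.tendsto_eval_ae_ae (μ := fun _ : ι => unif) (i := i)).eventually unif_ae

lemma cube_integrable {G : (ι → ℝ) → ℝ} (hG : Continuous G) : Integrable G (cube ι) := by
  obtain ⟨C, hC⟩ := (isCompact_univ_pi fun _ : ι => isCompact_Icc (a := (-1 : ℝ)) (b := 1)).exists_bound_of_continuousOn hG.continuousOn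
  refine Integrable.of_bound hG.aestronglyMeasurable C ?_
  filter_upwards [cube_ae] with θ hθ using hC θ fun i _ => abs_le.1 (hθ i)

variable [DecidableEq ι]

lemma cube_mp (i : ι) : MeasurePreserving (fun z : (ι → ℝ) × ℝ => update z.1 i z.2)
    ((cube ι).prod unif) (cube ι) := by
  refine ⟨measurable_update', ?_⟩
  symm
  refine Measure.pi_eq fun s hs => ?_
  rw [Measure.map_apply measurable_update' (MeasurableSet.univ_pi hs)]
  have : (fun z : (ι → ℝ) × ℝ => update z.1 i z.2) ⁻¹' Set.univ.pi s =
      (Set.univ.pi (update s i Set.univ)) ×ˢ s i := by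
    ext ⟨θ, t⟩
    simp only [Set.mem_preimage, Set.mem_pi, Set.mem_univ, true_imp_iff, Set.mem_prod]
    constructor
    · intro h
      refine ⟨fun k => ?_, by simpa using h i⟩
      by_cases hk : k = i
      · subst hk; simp
      · simpa [hk] using h k
    · rintro ⟨h1, h2⟩ k
      by_cases hk : k = i
      · subst hk; simpa using h2
      · simpa [hk] using h1 k
  rw [this, Measure.prod_prod, cube, Measure.pi_pi, ← mul_prod_erase univ _ (mem_univ i),
    ← mul_prod_erase univ (fun k => unif (s k)) (mem_univ i), update_self, measure_univ, one_mul,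
    mul_comm]
  congr 1
  exact prod_congr rfl fun k hk => by rw [update_of_ne (ne_of_mem_erase hk)]

/-- resampling one coordinate -/
lemma cube_update {G : (ι → ℝ) → ℝ} (hG : Continuous G) (i : ι) :
    ∫ θ, G θ ∂cube ι = ∫ θ, (∫ t in (-1 : ℝ)..1, G (update θ i t)) / 2 ∂cube ι := by
  have h := cube_mp i
  have hi : Integrable (fun z : (ι → ℝ) × ℝ => G (update z.1 i z.2)) ((cube ι).prod unif) :=
    (h.integrable_comp hG.aestronglyMeasurable).2 (cube_integrable hG)
  conv_lhs => rw [← h.map_eq, integral_map h.measurable.aemeasurable hG.aestronglyMeasurable,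
    integral_prod _ hi]
  simp only [unif_integral]

/-- fundamental theorem of calculus in one coordinate -/
lemma cube_ftc {G G' : (ι → ℝ) → ℝ} (hG : Continuous G) (hG' : Continuous G') (i : ι)
    (hd : ∀ θ t, HasDerivAt (fun t => G (update θ i t)) (G' (update θ i t)) t) :
    2 * ∫ θ, G' θ ∂cube ι =
      ∫ θ, G (update θ i 1) ∂cube ι - ∫ θ, G (update θ i (-1)) ∂cube ι := by
  have hc : ∀ t : ℝ, Continuous fun θ => G (update θ i t) := fun t =>
    hG.comp (continuous_id.update i continuous_const)
  rw [cube_update hG' i, ← integral_sub (cube_integrable (hc _)) (cube_integrable (hc _)),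
    ← integral_const_mul]
  congr 1
  ext θ
  rw [intervalIntegral.integral_eq_sub_of_hasDerivAt (fun t _ => hd θ t)
    ((hG'.comp (continuous_const.update i continuous_id)).intervalIntegrable _ _)]
  ring

/-- Stein's identity for the uniform law -/
lemma cube_stein {G G' : (ι → ℝ) → ℝ} (hG : Continuous G) (hG' : Continuous G') (i : ι)
    (hd : ∀ θ t, HasDerivAt (fun t => G (update θ i t)) (G' (update θ i t)) t) :
    ∫ θ, θ i * G θ ∂cube ι = ∫ θ, (1 - θ i ^ 2) / 2 * G' θ ∂cube ι := by
  have h := cube_ftc (G := fun θ => (θ i ^ 2 - 1) / 2 * G θ)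
    (G' := fun θ => θ i * G θ - (1 - θ i ^ 2) / 2 * G' θ) (by fun_prop) (by fun_prop) i
    (fun θ t => by
      simp only [update_self]
      exact ((((hasDerivAt_pow 2 t).sub_const 1).div_const 2).mul (hd θ t)).congr_deriv
        (by simp; ring))
  rw [integral_sub (cube_integrable (by fun_prop)) (cube_integrable (by fun_prop))] at h
  simp at h
  linarith

end cube

section latent
variable {A : Type} [Fintype A] {κ : ℕ}

/-- right factors: the latent variables of layer `i < κ`, and `1` in the last layer -/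
def Rl (θ : Option (Fin κ × A) → ℝ) (i : ℕ) (a : A) : ℝ :=
  if h : i < κ then θ (some (⟨i, h⟩, a)) else 1

/-- left factors -/
noncomputable def Ll (χ : A → A → ℝ) (θ : Option (Fin κ × A) → ℝ) : ℕ → A → ℝ
  | 0 => fun _ => θ none
  | i + 1 => fun b => Real.sin (∑ a, χ a b / √(Fintype.card A : ℝ) * Rl θ i a)

/-- the conditional means of the signs -/
noncomputable def Zl (χ : A → A → ℝ) (θ : Option (Fin κ × A) → ℝ) (v : Fin (κ + 1) × A) : ℝ :=
  Ll χ θ v.1 v.2 * Rl θ v.1 v.2 / 2

omit [Fintype A] in
lemma continuous_Rl (i : ℕ) (a : A) : Continuous fun θ : Option (Fin κ × A) → ℝ => Rl θ i a := by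
  unfold Rl; split_ifs <;> fun_prop

lemma continuous_Ll (χ : A → A → ℝ) (i : ℕ) (a : A) :
    Continuous fun θ : Option (Fin κ × A) → ℝ => Ll χ θ i a := by
  cases i
  · exact continuous_apply _
  · exact Real.continuous_sin.comp
      (continuous_finsetSum _ fun a _ => continuous_const.mul (continuous_Rl _ a))

lemma continuous_Zl (χ : A → A → ℝ) (v : Fin (κ + 1) × A) :
    Continuous fun θ : Option (Fin κ × A) → ℝ => Zl χ θ v :=
  ((continuous_Ll χ _ _).mul (continuous_Rl _ _)).div_const 2

omit [Fintype A] in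
lemma abs_Rl_le {θ : Option (Fin κ × A) → ℝ} (hθ : ∀ i, |θ i| ≤ 1) (i : ℕ) (a : A) :
    |Rl θ i a| ≤ 1 := by
  unfold Rl; split_ifs
  · exact hθ _
  · simp

lemma abs_Zl_le (χ : A → A → ℝ) {θ : Option (Fin κ × A) → ℝ} (hθ : ∀ i, |θ i| ≤ 1)
    (v : Fin (κ + 1) × A) : |Zl χ θ v| ≤ 1 / 2 := by
  have h1 : ∀ i a, |Ll χ θ i a| ≤ 1 := fun i a => by
    cases i
    · exact hθ _
    · exact Real.abs_sin_le_one _
  rw [Zl, abs_div, abs_mul, abs_two]
  have := mul_le_one₀ (h1 v.1 v.2) (abs_nonneg _) (abs_Rl_le hθ v.1 v.2)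
  linarith

lemma continuous_Dv {X V : Type} [TopologicalSpace X] [Fintype V] [DecidableEq V] (B : Finset V)
    (f : (V → Bool) → ℝ) {Z : X → V → ℝ} (hZ : ∀ v, Continuous fun θ => Z θ v) :
    Continuous fun θ => Dv B f (Z θ) := by
  unfold Dv
  refine continuous_finsetSum _ fun y _ => continuous_const.mul
    (continuous_finsetProd _ fun v _ => ?_)
  have := hZ v
  split_ifs <;> fun_prop

end latent

end Crest.Agent.R350
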