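import Crest.Prelude.Def_QueryComplexity

/-! Definitions for row 350 (quartic gap between randomized and quantum query complexity). -/

set_option autoImplicit false
open Finset Function Matrix

namespace Crest.Agent.R350

/-- the sign attached to a bit -/
def sg (b : Bool) : ℝ := if b then -1 else 1

@[simp] lemma sg_true : sg true = -1 := rfl
@[simp] lemma sg_false : sg false = 1 := rfl
lemma sg_sq (b : Bool) : sg b ^ 2 = 1 := by cases b <;> simp
lemma sg_mul_self (b : Bool) : sg b * sg b = 1 := by cases b <;> simp
lemma abs_sg (b : Bool) : |sg b| = 1 := by cases b <;> simp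

/-- `f` is computed by a decision tree of depth at most `d` -/
def DT {I β : Type} [DecidableEq I] : ℕ → ((I → Bool) → β) → Prop
  | 0, f => ∃ c, ∀ x, f x = c
  | d + 1, f => (∃ c, ∀ x, f x = c) ∨ ∃ i, ∀ b, DT d fun x => f (update x i b)

/-- phase oracle on a space whose basis vectors carry optional query labels -/
def phase {I J : Type} [DecidableEq J] (ℓ : J → Option I) (x : I → Bool) : Matrix J J ℝ :=
  diagonal fun j => (ℓ j).elim 1 fun i => sg (x i)

/-- a family of real orthogonal matrices implemented with `T` phase queries -/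
def IsQ {I J : Type} [Fintype J] [DecidableEq J] : ℕ → ((I → Bool) → Matrix J J ℝ) → Prop
  | 0, A => ∃ U : Matrix J J ℝ, Uᵀ * U = 1 ∧ ∀ x, A x = U
  | T + 1, A => ∃ U : Matrix J J ℝ, Uᵀ * U = 1 ∧
      ∃ (ℓ : J → Option I) (B : (I → Bool) → Matrix J J ℝ),
        IsQ T B ∧ ∀ x, A x = U * phase ℓ x * B x

/-- the family of output distributions `P` is produced by a quantum algorithm with `T` queries -/
def Realiz {I β : Type} [DecidableEq β] (T : ℕ) (P : (I → Bool) → β → ℝ) : Prop :=
  ∃ (J : Type) (_ : Fintype J) (_ : DecidableEq J) (A : (I → Bool) → Matrix J J ℝ) (j₀ : J)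
    (out : J → β), IsQ T A ∧ ∀ x b, P x b = ∑ j, if out j = b then A x j j₀ ^ 2 else 0

/-- coefficients (good part, bad part) after `t` rounds of amplitude amplification -/
def ampC (p : ℝ) : ℕ → ℝ × ℝ
  | 0 => (1, 1)
  | t + 1 => ((ampC p t).1 * (1 - 2 * p) + 2 * (ampC p t).2 * (1 - p),
      -2 * (ampC p t).1 * p + (ampC p t).2 * (1 - 2 * p))

/-- the unnormalised Forrelation vectors -/
def fw {A R : Type} [Fintype A] [CommRing R] (χ : A → A → R) (z : ℕ → A → R) : ℕ → A → R
  | 0 => fun _ => 1
  | i + 1 => fun b => ∑ a, χ a b * (z i a * fw χ z i a)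

/-- the signs of a Forrelation instance, block by block -/
def zOf {A : Type} {K : ℕ} (y : Fin K × A → Bool) : ℕ → A → ℝ :=
  fun i a => if h : i < K then sg (y (⟨i, h⟩, a)) else 0

/-- the `(κ+1)`-fold Forrelation value -/
noncomputable def Phi {A : Type} [Fintype A] {κ : ℕ} (χ : A → A → ℝ) (a₀ : A)
    (y : Fin (κ + 1) × A → Bool) : ℝ :=
  fw χ (zOf y) (κ + 1) a₀ / √(Fintype.card A : ℝ) ^ (κ + 2)

/-- partial derivative in the directions `B` of the multilinear extension of `f`, at `Z` -/
noncomputable def Dv {V : Type} [Fintype V] [DecidableEq V] (B : Finset V) (f : (V → Bool) → ℝ)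
    (Z : V → ℝ) : ℝ :=
  ∑ y : V → Bool, f y * ∏ v, if v ∈ B then sg (y v) / 2 else (1 + sg (y v) * Z v) / 2

/-- input positions: a row together with a mark, an instance bit or a cell bit -/
abbrev Idx (R M C V Ad Ce : Type) : Type := R × (M ⊕ (C × V) ⊕ (Ad × Ce))

section DT
variable {I I' β γ : Type} [DecidableEq I] [DecidableEq I']

lemma DT.const (d : ℕ) (c : β) : DT d (fun _ : I → Bool => c) := by
  cases d
  · exact ⟨c, fun _ => rfl⟩
  · exact Or.inl ⟨c, fun _ => rfl⟩

lemma DT.of_const {f : (I → Bool) → β} (d : ℕ) (h : ∃ c, ∀ x, f x = c) : DT d f := by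
  obtain ⟨c, hc⟩ := h
  rw [show f = fun _ => c from funext hc]
  exact DT.const d c

lemma DT.succ {d : ℕ} {f : (I → Bool) → β} (h : DT d f) : DT (d + 1) f := by
  induction d generalizing f with
  | zero => exact Or.inl h
  | succ d ih =>
    rcases h with h | ⟨i, h⟩
    · exact Or.inl h
    · exact Or.inr ⟨i, fun b => ih (h b)⟩

lemma DT.mono {d d' : ℕ} {f : (I → Bool) → β} (h : DT d f) (hd : d ≤ d') : DT d' f := by
  induction hd with
  | refl => exact h
  | step _ ih => exact ih.succ

/-- substitution of constants and variables -/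
lemma DT.subst {d : ℕ} {f : (I → Bool) → β} (h : DT d f) (τ : I → Bool ⊕ I') :
    DT d fun x : I' → Bool => f fun i => (τ i).elim id x := by
  induction d generalizing f τ with
  | zero => obtain ⟨c, hc⟩ := h; exact ⟨c, fun _ => hc _⟩
  | succ d ih =>
    rcases h with ⟨c, hc⟩ | ⟨i, h⟩
    · exact Or.inl ⟨c, fun _ => hc _⟩
    · rcases hi : τ i with b | i'
      · refine DT.succ ?_
        convert ih (h b) τ using 3 with x
        ext k
        by_cases hk : k = i
        · subst hk; simp [hi]
        · simp [hk]
      · refine Or.inr ⟨i', fun b => ?_⟩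
        convert ih (h b) (fun k => if τ k = Sum.inr i' then Sum.inl b else τ k) using 3 with x
        ext k
        by_cases hk : k = i
        · subst hk; simp [hi]
        · rw [update_of_ne hk]
          rcases τ k with b' | k'
          · simp
          · by_cases hk' : k' = i'
            · subst hk'; simp
            · simp [hk']

lemma DT.update {d : ℕ} {f : (I → Bool) → β} (h : DT d f) (i : I) (b : Bool) :
    DT d fun x => f (update x i b) := by
  convert h.subst (fun k => if k = i then Sum.inl b else Sum.inr k) using 3 with x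
  ext k
  by_cases hk : k = i
  · subst hk; simp
  · simp [hk]

lemma DT.read {d : ℕ} {f₀ f₁ : (I → Bool) → β} (i : I) (h₀ : DT d f₀) (h₁ : DT d f₁) :
    DT (d + 1) fun x => if x i then f₁ x else f₀ x := by
  refine Or.inr ⟨i, fun b => ?_⟩
  cases b
  · simpa using h₀.update i false
  · simpa using h₁.update i true

lemma DT.bind {d d' : ℕ} {g : (I → Bool) → β} {h : β → (I → Bool) → γ} (hg : DT d g)
    (hh : ∀ b, DT d' (h b)) : DT (d + d') fun x => h (g x) x := by
  induction d generalizing g h with
  | zero =>
    obtain ⟨c, hc⟩ := hg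
    simp only [hc, zero_add]
    exact hh c
  | succ d ih =>
    rcases hg with ⟨c, hc⟩ | ⟨i, hi⟩
    · simp only [hc]
      exact (hh c).mono (by omega)
    · rw [show d + 1 + d' = d + d' + 1 by omega]
      exact Or.inr ⟨i, fun b => ih (hi b) (h := fun c x => h c (Function.update x i b))
        fun c => (hh c).update i b⟩

lemma DT.map {d : ℕ} {g : (I → Bool) → β} (hg : DT d g) (φ : β → γ) : DT d fun x => φ (g x) :=
  hg.bind (d' := 0) (h := fun b _ => φ b) fun b => DT.const 0 (φ b)

lemma DT.pair {d d' : ℕ} {g : (I → Bool) → β} {h : (I → Bool) → γ} (hg : DT d g) (hh : DT d' h) :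
    DT (d + d') fun x => (g x, h x) :=
  hg.bind (h := fun b x => (b, h x)) fun b => hh.map fun c => (b, c)

lemma DT.var (i : I) : DT 1 fun x : I → Bool => x i := by
  simpa using DT.read i (DT.const 0 false) (DT.const 0 true)

/-- reading several values -/
lemma DT.pi {C : Type} [Fintype C] {d : ℕ} {g : C → (I → Bool) → β} (hg : ∀ c, DT d (g c)) :
    DT (Fintype.card C * d) fun x c => g c x := by
  classical
  have key : ∀ s : Finset C, DT (s.card * d) fun x (c : C) => if c ∈ s then some (g c x) else none := by
    intro s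
    induction s using Finset.induction_on with
    | empty => simpa using DT.const 0 (fun _ : C => (none : Option β))
    | insert c s hc ih =>
      rw [card_insert_of_notMem hc, add_mul, one_mul]
      convert (ih.pair (hg c)).map fun z => Function.update z.1 c (some z.2) using 2 with x
      ext1 c'
      by_cases h : c' = c
      · subst h; simp
      · simp [h]
  have := (key univ).map fun z : C → Option β => fun c => (z c).getD (g c fun _ => false)
  simpa using this

end DT

end Crest.Agent.R350
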