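import Crest.Agent.R350.QAmp

/-! Row 350, part B: the elimination algorithm. -/

set_option autoImplicit false
set_option linter.unusedSectionVars false
open Finset Function Matrix

namespace Crest.Agent.R350

variable {I R Ad Ch : Type} [DecidableEq I] [Fintype R] [DecidableEq R] [Fintype Ad]
  [DecidableEq Ad] [Fintype Ch] [DecidableEq Ch]

lemma Realiz.elimCongr {β : Type} [DecidableEq β] {T : ℕ} {P P' : (I → Bool) → β → ℝ}
    (h : Realiz T P) (hP : ∀ x b, P x b = P' x b) : Realiz T P' := by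
  rwa [show P = P' from funext fun x => funext (hP x)] at h

lemma elim_unif (β : Type) [Fintype β] [DecidableEq β] [Nonempty β] :
    Realiz 0 fun (_ : I → Bool) (_ : β) => (Fintype.card β : ℝ)⁻¹ :=
  realiz_dist (fun _ => by positivity) (by simp)

lemma Realiz.elimNone {β : Type} [DecidableEq β] [Fintype β] {T : ℕ}
    {P : (I → Bool) → Option β → ℝ} (h : Realiz T P) (x : I → Bool) :
    P x none = 1 - ∑ b, P x (some b) := by
  rw [← h.sum_eq_one x, Fintype.sum_option, add_sub_cancel_right]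

/-- Verification of one cell: five independent `search`es for a violated check. The base
distribution on `Ch × Bool` is a uniform `k` together with `ok k x` (`realiz_dist`, `bind`,
`DT.realiz`), good means `ok k x = false`; answer `true` iff all five searches return `none`
(`Realiz.pi` over `Fin 5`, `map`). `(3/4)^5 ≤ 1/3`. -/
lemma verify_alg [Nonempty Ch] {Tc J' : ℕ} (ok : Ch → (I → Bool) → Bool)
    (hok : ∀ k, DT Tc (ok k)) (hJ' : Fintype.card Ch ≤ J' ^ 2) :
    ∃ P : (I → Bool) → Bool → ℝ, Realiz (5 * (2 * J' * Tc)) P ∧ ∀ x,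
      ((∀ k, ok k x = true) → P x true = 1) ∧ ((∃ k, ok k x = false) → 2 / 3 ≤ P x false) := by
  have hC : 0 < Fintype.card Ch := Fintype.card_pos
  have hC' : (0 : ℝ) < Fintype.card Ch := by exact_mod_cast hC
  have hJ0 : 0 < J' := by
    rcases Nat.eq_zero_or_pos J' with rfl | h0
    · omega
    · exact h0
  have h1 : Realiz (0 + Tc) fun x (o : Ch × Bool) =>
      if ok o.1 x = o.2 then (Fintype.card Ch : ℝ)⁻¹ else 0 := by
    refine ((elim_unif Ch).bind fun k => ((hok k).map fun b => (k, b)).realiz).elimCongr ?_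
    rintro x ⟨k, b⟩
    rw [sum_eq_single k]
    · simp
    · intro k' _ hk
      simp [hk]
    · simp
  rw [zero_add] at h1
  obtain ⟨P', hP', hγ⟩ := h1.search (fun o => !o.2) hJ0
  have h2 := (Realiz.pi (C := Fin 5) fun _ => hP').map fun o => decide (o = fun _ => none)
  rw [Fintype.card_fin] at h2
  refine ⟨_, h2, fun x => ?_⟩
  obtain ⟨γ, hγ0, hγ1, hγ2⟩ := hγ x
  have h3 : (∑ o : Ch × Bool, if (!o.2) = true then
      (if ok o.1 x = o.2 then (Fintype.card Ch : ℝ)⁻¹ else 0) else 0) =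
      ∑ k, if ok k x = false then (Fintype.card Ch : ℝ)⁻¹ else 0 := by
    rw [Fintype.sum_prod_type]
    refine sum_congr rfl fun k _ => ?_
    simp
  have h4 : P' x none = 1 - γ * ∑ k, if ok k x = false then (Fintype.card Ch : ℝ)⁻¹ else 0 := by
    rw [hP'.elimNone, ← h3, mul_sum]
    congr 1
    refine sum_congr rfl fun o _ => ?_
    rw [hγ1]
    split_ifs <;> simp
  have h5 : (∑ o : Fin 5 → Option (Ch × Bool),
      if decide (o = fun _ => none) = true then ∏ c, P' x (o c) else 0) = P' x none ^ 5 := by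
    simp
  have h6 := h2.sum_eq_one x
  rw [Fintype.sum_bool, h5] at h6
  refine ⟨fun hk => ?_, fun ⟨k, hk⟩ => ?_⟩
  · rw [h5, h4]
    simp [hk]
  · have h7 : (Fintype.card Ch : ℝ)⁻¹ ≤ ∑ k, if ok k x = false then (Fintype.card Ch : ℝ)⁻¹ else 0 := by
      refine le_trans (le_of_eq ?_) (single_le_sum (fun k _ => ?_) (mem_univ k))
      · rw [if_pos hk]
      · split_ifs <;> positivity
    rw [h3] at hγ2
    have h8 := hγ2 (by
      have h9 : (Fintype.card Ch : ℝ) ≤ (J' : ℝ) ^ 2 := by exact_mod_cast hJ'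
      refine le_trans ?_ (mul_le_mul_of_nonneg_left h7 (by positivity))
      rw [← div_eq_mul_inv, le_div_iff₀ hC', one_mul]
      exact h9)
    have h10 : P' x none ^ 5 ≤ (3 / 4) ^ 5 :=
      pow_le_pow_left₀ (hP'.nonneg x none) (by linarith) 5
    norm_num at h10
    linarith

namespace El

/-- the cell `i` survives the history `h` -/
def sv (beats : R × Ad → R → (I → Bool) → Bool) (h : List (R × Ad)) (i : R × Ad) (x : I → Bool) :
    Bool := h.all fun c => beats i c.1 x && !beats c i.1 x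

lemma sv_cons (beats : R × Ad → R → (I → Bool) → Bool) (c : R × Ad) (h : List (R × Ad))
    (i : R × Ad) (x : I → Bool) :
    sv beats (c :: h) i x = ((beats i c.1 x && !beats c i.1 x) && sv beats h i x) := rfl

lemma sv_DT {Tb : ℕ} {beats : R × Ad → R → (I → Bool) → Bool} (hb : ∀ c r, DT Tb (beats c r))
    (h : List (R × Ad)) (i : R × Ad) : DT (2 * h.length * Tb) (sv beats h i) := by
  induction h with
  | nil => exact DT.const _ true
  | cons c h ih =>
    have := (((hb i c.1).pair (hb c i.1)).pair ih).map fun z => (z.1.1 && !z.1.2) && z.2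
    refine DT.mono this (le_of_eq ?_)
    rw [List.length_cons]; ring

/-- the weight of a surviving cell -/
def kw (w : R → (I → Bool) → Ad → ℝ) (beats : R × Ad → R → (I → Bool) → Bool) (h : List (R × Ad))
    (x : I → Bool) (i : R × Ad) : ℝ := if sv beats h i x then w i.1 x i.2 else 0

lemma round_alg [Nonempty R] {Td Tb T J : ℕ} {w : R → (I → Bool) → Ad → ℝ}
    (hw : ∀ r, Realiz Td (w r)) {beats : R × Ad → R → (I → Bool) → Bool}
    (hb : ∀ c r, DT Tb (beats c r)) (hJ : 2 * Fintype.card R ≤ J ^ 2) (h : List (R × Ad))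
    (hh : h.length ≤ T) :
    ∃ S : (I → Bool) → Option (R × Ad) → ℝ, Realiz (2 * J * (Td + 2 * T * Tb)) S ∧ ∀ x,
      ∃ γ : ℝ, 0 ≤ γ ∧ (∀ c, S x (some c) = γ * kw w beats h x c) ∧
        (9 / 10 ≤ ∑ c, kw w beats h x c → 1 / 4 ≤ γ * ∑ c, kw w beats h x c) := by
  have hR : 0 < Fintype.card R := Fintype.card_pos
  have hR' : (0 : ℝ) < Fintype.card R := by exact_mod_cast hR
  have hJ0 : 0 < J := by
    rcases Nat.eq_zero_or_pos J with rfl | h0
    · omega
    · exact h0
  have h1 : Realiz (0 + Td) fun x (c : R × Ad) => (Fintype.card R : ℝ)⁻¹ * w c.1 x c.2 := by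
    refine ((elim_unif R).bind fun r => (hw r).map fun α => (r, α)).elimCongr ?_
    rintro x ⟨r, α⟩
    rw [sum_eq_single r]
    · simp
    · intro r' _ hr
      simp [hr]
    · simp
  have h2 : Realiz (Td + 2 * T * Tb) fun x (o : (R × Ad) × Bool) =>
      if sv beats h o.1 x = o.2 then (Fintype.card R : ℝ)⁻¹ * w o.1.1 x o.1.2 else 0 := by
    rw [zero_add] at h1
    refine (h1.bind fun c => (((sv_DT hb h c).mono (by gcongr)).map fun b => (c, b)).realiz).elimCongr ?_
    rintro x ⟨c, b⟩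
    rw [sum_eq_single c]
    · simp
    · intro c' _ hc
      simp [hc]
    · simp
  obtain ⟨P', hP', hγ⟩ := h2.search (fun o => o.2) hJ0
  refine ⟨_, hP'.map (Option.map Prod.fst), fun x => ?_⟩
  obtain ⟨γ, hγ0, hγ1, hγ2⟩ := hγ x
  have h3 : (∑ o : (R × Ad) × Bool, if o.2 = true then
      (if sv beats h o.1 x = o.2 then (Fintype.card R : ℝ)⁻¹ * w o.1.1 x o.1.2 else 0) else 0) =
      (Fintype.card R : ℝ)⁻¹ * ∑ c, kw w beats h x c := by
    rw [Fintype.sum_prod_type, mul_sum]
    refine sum_congr rfl fun c _ => ?_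
    simp [kw]
  rw [h3] at hγ2
  refine ⟨γ * (Fintype.card R : ℝ)⁻¹, by positivity, fun c => ?_, fun h9 => ?_⟩
  · rw [Fintype.sum_option, Fintype.sum_prod_type, sum_eq_single c]
    · simp [hγ1, kw, mul_assoc]
    · intro c' _ hc
      simp [hc]
    · simp
  · rw [mul_assoc]
    refine hγ2 ?_
    have h4 : (2 : ℝ) * Fintype.card R ≤ (J : ℝ) ^ 2 := by exact_mod_cast hJ
    have h5 : (2 : ℝ) ≤ (J : ℝ) ^ 2 * (Fintype.card R : ℝ)⁻¹ := by
      rw [← div_eq_mul_inv, le_div_iff₀ hR']; exact h4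
    rw [← mul_assoc]
    nlinarith

lemma kw_nonneg {w : R → (I → Bool) → Ad → ℝ} {x : I → Bool} (hw : ∀ r α, 0 ≤ w r x α)
    (beats : R × Ad → R → (I → Bool) → Bool) (h : List (R × Ad)) (i : R × Ad) :
    0 ≤ kw w beats h x i := by
  unfold kw; split_ifs
  exacts [hw _ _, le_rfl]

lemma kw_le {w : R → (I → Bool) → Ad → ℝ} {x : I → Bool} (hw : ∀ r α, 0 ≤ w r x α)
    (beats : R × Ad → R → (I → Bool) → Bool) (h : List (R × Ad)) (i : R × Ad) :
    kw w beats h x i ≤ w i.1 x i.2 := by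
  unfold kw; split_ifs
  exacts [le_rfl, hw _ _]

lemma kw_half {w : R → (I → Bool) → Ad → ℝ} {x : I → Bool} (hw : ∀ r α, 0 ≤ w r x α)
    (beats : R × Ad → R → (I → Bool) → Bool) (h : List (R × Ad)) :
    ∑ c, kw w beats h x c * ∑ i, kw w beats (c :: h) x i ≤ (∑ c, kw w beats h x c) ^ 2 / 2 := by
  have h1 : ∀ c i, kw w beats h x c * kw w beats (c :: h) x i +
      kw w beats h x i * kw w beats (i :: h) x c ≤ kw w beats h x c * kw w beats h x i := by
    intro c i
    have h2 := mul_nonneg (hw c.1 c.2) (hw i.1 i.2)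
    cases e1 : beats i c.1 x <;> cases e2 : beats c i.1 x <;> cases e3 : sv beats h i x <;>
      cases e4 : sv beats h c x <;> simp [kw, sv_cons, e1, e2, e3, e4, mul_comm, h2]
  have h3 : ∑ c, ∑ i, (kw w beats h x c * kw w beats (c :: h) x i +
      kw w beats h x i * kw w beats (i :: h) x c) ≤
      ∑ c, ∑ i, kw w beats h x c * kw w beats h x i :=
    sum_le_sum fun c _ => sum_le_sum fun i _ => h1 c i
  simp only [sum_add_distrib] at h3
  rw [sum_comm (f := fun c i => kw w beats h x i * kw w beats (i :: h) x c), ← sum_mul_sum] at h3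
  simp only [mul_sum]
  rw [sq]
  linarith

lemma rounds_alg [Nonempty R] {Td Tb T J : ℕ} {w : R → (I → Bool) → Ad → ℝ}
    (hw : ∀ r, Realiz Td (w r)) {beats : R × Ad → R → (I → Bool) → Bool}
    (hb : ∀ c r, DT Tb (beats c r)) (hJ : 2 * Fintype.card R ≤ J ^ 2) (s : ℕ) :
    ∀ (h : List (R × Ad)) (c₀ : R × Ad), h.length + s ≤ T →
    ∃ P : (I → Bool) → R × Ad → ℝ, Realiz (s * (2 * J * (Td + 2 * T * Tb))) P ∧ ∀ x,
      ((∀ i, sv beats h i x = false) → P x c₀ = 1) ∧ ∀ c, 9 / 10 ≤ w c.1 x c.2 →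
        (∀ r, r ≠ c.1 → beats c r x = true) → (∀ c', beats c' c.1 x = false) →
        sv beats h c x = true →
        1 - P x c ≤ 1 / 10 + (∑ i, kw w beats h x i) * (7 / 8) ^ s / w c.1 x c.2 := by
  have hw0 : ∀ x r α, 0 ≤ w r x α := fun x r α => (hw r).nonneg x α
  have hWc : ∀ h x c, sv beats h c x = true → w c.1 x c.2 ≤ ∑ i, kw w beats h x i := by
    intro h x c hc
    refine le_trans (le_of_eq ?_) (single_le_sum (fun i _ => kw_nonneg (hw0 x) beats h i)
      (mem_univ c))
    simp [kw, hc]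
  induction s with
  | zero =>
    intro h c₀ _
    refine ⟨_, (DT.const _ c₀).realiz, fun x => ⟨fun _ => by simp, fun c h9 _ _ hc => ?_⟩⟩
    have h1 : 1 ≤ (∑ i, kw w beats h x i) * (7 / 8) ^ 0 / w c.1 x c.2 := by
      rw [pow_zero, mul_one, le_div_iff₀ (by linarith), one_mul]
      exact hWc h x c hc
    have h2 : (0 : ℝ) ≤ if c₀ = c then 1 else 0 := by split_ifs <;> norm_num
    linarith
  | succ s ih =>
    intro h c₀ hT
    obtain ⟨S, hS, hS'⟩ := round_alg hw hb hJ h (T := T) (by omega)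
    obtain ⟨Q₀, hQ₀, hQ₀'⟩ := ih h c₀ (by omega)
    choose Q hQ hQ' using fun c => ih (c :: h) c (by rw [List.length_cons]; omega)
    have hP := hS.bind (Q := fun o => o.elim Q₀ Q) (fun o => by
      cases o
      exacts [hQ₀, hQ _])
    refine ⟨_, hP.mono (le_of_eq (by ring)), fun x => ?_⟩
    obtain ⟨γ, hγ0, hγ1, hγ2⟩ := hS' x
    have hn := hS.elimNone x
    have hn0 := hS.nonneg x none
    simp only [hγ1, ← mul_sum] at hn
    simp only [Fintype.sum_option, Option.elim, hγ1, hn]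
    refine ⟨fun hK => ?_, fun c h9 hc1 hc2 hc => ?_⟩
    · simp [kw, hK, (hQ₀' x).1 hK]
    · set W := ∑ i, kw w beats h x i with hW
      set ρ : ℝ := (7 / 8) ^ s / w c.1 x c.2 with hρ
      have hρ0 : 0 ≤ ρ := div_nonneg (by positivity) (hw0 _ _ _)
      have hW9 : 9 / 10 ≤ W := h9.trans (hWc h x c hc)
      have hσ := hγ2 hW9
      have e0 := (hQ₀' x).2 c h9 hc1 hc2 hc
      rw [mul_div_assoc, ← hρ, ← hW] at e0
      have e1 : ∀ c', kw w beats h x c' * (1 - Q c' x c) ≤
          kw w beats h x c' * (1 / 10) + kw w beats h x c' * (∑ i, kw w beats (c' :: h) x i) * ρ +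
            ((if c'.1 = c.1 then 9 / 10 * w c'.1 x c'.2 else 0) -
              if c' = c then w c.1 x c.2 else 0) := by
        intro c'
        have k0 := kw_nonneg (hw0 x) beats h c'
        have k1 := kw_le (hw0 x) beats h c'
        have k2 : 0 ≤ kw w beats h x c' * (∑ i, kw w beats (c' :: h) x i) * ρ :=
          mul_nonneg (mul_nonneg k0 (sum_nonneg fun i _ => kw_nonneg (hw0 x) beats _ i)) hρ0
        by_cases h1 : c' = c
        · subst h1
          have k3 : kw w beats h x c' = w c'.1 x c'.2 := by simp [kw, hc]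
          rw [(hQ' c' x).1 fun i => by simp [sv_cons, hc2], if_pos rfl, if_pos rfl]
          linarith
        · rw [if_neg h1]
          by_cases h2 : c'.1 = c.1
          · rw [if_pos h2]
            have k4 := mul_nonneg k0 ((hQ c').nonneg x c)
            linarith
          · rw [if_neg h2]
            have k5 := (hQ' c' x).2 c h9 hc1 hc2 (by simp [sv_cons, hc, hc2, hc1 _ h2])
            rw [mul_div_assoc, ← hρ] at k5
            have := mul_le_mul_of_nonneg_left k5 k0
            linarith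
      have e2 := sum_le_sum fun c' (_ : c' ∈ univ) => e1 c'
      have e3 : (∑ c' : R × Ad, if c'.1 = c.1 then 9 / 10 * w c'.1 x c'.2 else 0) = 9 / 10 := by
        rw [Fintype.sum_prod_type, sum_eq_single c.1]
        · simp [← mul_sum, (hw c.1).sum_eq_one x]
        · intro r _ hr
          simp [hr]
        · simp
      simp only [sum_add_distrib, sum_sub_distrib, ← sum_mul, e3, sum_ite_eq', mem_univ, if_true,
        mul_sub, mul_one, ← hW] at e2
      have e4 := mul_le_mul_of_nonneg_right (kw_half (hw0 x) beats h) hρ0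
      rw [← hW] at e4
      have e5 : ∑ c', γ * kw w beats h x c' * Q c' x c = γ * ∑ c', kw w beats h x c' * Q c' x c := by
        rw [mul_sum]
        exact sum_congr rfl fun _ _ => mul_assoc _ _ _
      have e6 : W * (7 / 8) ^ (s + 1) / w c.1 x c.2 = 7 / 8 * (W * ρ) := by
        rw [hρ, pow_succ]; ring
      rw [e5, e6]
      rw [hn] at hn0
      have e7 : W - ∑ c', kw w beats h x c' * Q c' x c ≤ W * (1 / 10) + W ^ 2 / 2 * ρ := by
        linarith
      have e8 := mul_le_mul_of_nonneg_left e7 hγ0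
      have e9 := mul_le_mul_of_nonneg_left e0 hn0
      have e10 := mul_le_mul_of_nonneg_right hσ (mul_nonneg (by linarith : 0 ≤ W) hρ0)
      nlinarith

end El

open El

/-- Finding the winning cell. For a history `h : List (R × Ad)` put
`K h x = {i | ∀ c ∈ h, beats i c.1 x ∧ ¬ beats c i.1 x}` (membership is `DT (2 * h.length * Tb)`).
One round: base distribution on `(R × Ad) × Bool`: uniform row `r`, `α ∼ w r x`, flag `(r, α) ∈ K h x`;
`search` for flag `true`; on `some (c, _)` push `c` on `h`, on `none` keep `h`. Prove by induction on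
the number `s` of remaining rounds, for all `h` with `h.length + s ≤ T` and every default cell `c₀`
(the last pushed cell): there is `P` with `Realiz (s * (2 * J * (Td + 2 * T * Tb))) P`, on outputs
`R × Ad`, such that for all `x`: (i) if `K h x = ∅` then `P x c₀ = 1`; (ii) if `c` is a winning cell
(the three properties) and `c ∈ K h x` then
`1 - P x c ≤ 1/10 + W (K h x) * (7/8)^s / w c.1 x c.2`, where `W K = ∑ i ∈ K, w i.1 x i.2`.
Step: the sample is `c'` with probability `γ' w c'` (`c' ∈ K`), total `σ = γ' W ∈ [1/4, 1]` since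
`J² W / |R| ≥ 2 · 9/10`. If `c' = c` the new `K` is empty (nobody beats `c.1`), failure `0`. If
`c'.1 = c.1`, `c' ≠ c`: failure `≤ 1`, total weight `u ≤ 1 - w c ≤ 1/10`, and `u ≤ (w c + u)/10`.
Otherwise `c` stays in `K`, and `∑_{c' ∈ K} w c' * W (K (c' :: h)) ≤ W² / 2` because `i` survives `c'`
and `c'` survives `i` cannot both hold. So the second term is multiplied by `1 - σ/2 ≤ 7/8`.
At the start `h = []`, `W = |R|`, and `1/10 + (1/5)/(9/10) ≤ 1/3`. -/
lemma find_alg [Nonempty R] [Nonempty Ad] {Td Tb T J : ℕ} (w : R → (I → Bool) → Ad → ℝ)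
    (hw : ∀ r, Realiz Td (w r)) (beats : R × Ad → R → (I → Bool) → Bool)
    (hb : ∀ c r, DT Tb (beats c r)) (hT : (Fintype.card R : ℝ) * (7 / 8) ^ T ≤ 1 / 5)
    (hJ : 2 * Fintype.card R ≤ J ^ 2) :
    ∃ P : (I → Bool) → R × Ad → ℝ, Realiz (T * (2 * J * (Td + 2 * T * Tb))) P ∧ ∀ x c,
      9 / 10 ≤ w c.1 x c.2 → (∀ r, r ≠ c.1 → beats c r x = true) →
      (∀ c', beats c' c.1 x = false) → 2 / 3 ≤ P x c := by
  obtain ⟨P, hP, hP'⟩ := rounds_alg (T := T) hw hb hJ T [] (Classical.arbitrary _) (by simp)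
  refine ⟨P, hP, fun x c h9 h1 h2 => ?_⟩
  have h3 := (hP' x).2 c h9 h1 h2 rfl
  have h4 : ∑ i, kw w beats [] x i = Fintype.card R := by
    rw [Fintype.sum_prod_type]
    simp [kw, sv, fun r => (hw r).sum_eq_one x]
  rw [h4] at h3
  have h5 : (Fintype.card R : ℝ) * (7 / 8) ^ T / w c.1 x c.2 ≤ 2 / 9 := by
    rw [div_le_iff₀ (by linarith)]
    linarith
  linarith

theorem elim_alg [Nonempty R] [Nonempty Ad] [Nonempty Ch] {Td Tb Tc T J J' : ℕ}
    (w : R → (I → Bool) → Ad → ℝ) (hw : ∀ r, Realiz Td (w r))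
    (beats : R × Ad → R → (I → Bool) → Bool) (hb : ∀ c r, DT Tb (beats c r))
    (ok : R × Ad → Ch → (I → Bool) → Bool) (hok : ∀ c k, DT Tc (ok c k))
    (F : (I → Bool) → Bool) (hF : ∀ x, F x = true ↔ ∃ c, ∀ k, ok c k x = true)
    (htrue : ∀ x c, (∀ k, ok c k x = true) → 9 / 10 ≤ w c.1 x c.2 ∧
      (∀ r, r ≠ c.1 → beats c r x = true) ∧ ∀ c', beats c' c.1 x = false)
    (hT : (Fintype.card R : ℝ) * (7 / 8) ^ T ≤ 1 / 5) (hJ : 2 * Fintype.card R ≤ J ^ 2)
    (hJ' : Fintype.card Ch ≤ J' ^ 2) :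
    ∃ P : (I → Bool) → Bool → ℝ,
      Realiz (T * (2 * J * (Td + 2 * T * Tb)) + 5 * (2 * J' * Tc)) P ∧
        ∀ x, 2 / 3 ≤ P x (F x) := by
  obtain ⟨P, hP, hP'⟩ := find_alg w hw beats hb hT hJ
  choose Q hQ hQ' using fun c => verify_alg (ok c) (hok c) hJ'
  refine ⟨_, hP.bind hQ, fun x => ?_⟩
  cases hx : F x
  · have h : ∀ c, 2 / 3 ≤ Q c x false := fun c => (hQ' c x).2 <| by
      by_contra hc
      have : F x = true := (hF x).2 ⟨c, fun k => by
        by_contra hk
        exact hc ⟨k, by simpa using hk⟩⟩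
      simp [hx] at this
    calc (2 / 3 : ℝ) = ∑ c, P x c * (2 / 3) := by rw [← sum_mul, hP.sum_eq_one, one_mul]
      _ ≤ _ := sum_le_sum fun c _ => mul_le_mul_of_nonneg_left (h c) (hP.nonneg x c)
  · obtain ⟨c, hc⟩ := (hF x).1 hx
    obtain ⟨h1, h2, h3⟩ := htrue x c hc
    calc (2 / 3 : ℝ) ≤ P x c * Q c x true := by
          rw [(hQ' c x).1 hc, mul_one]; exact hP' x c h1 h2 h3
      _ ≤ _ := single_le_sum (f := fun c => P x c * Q c x true)
          (fun c _ => mul_nonneg (hP.nonneg x c) ((hQ c).nonneg x _)) (mem_univ c)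

end Crest.Agent.R350
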