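import Crest.Agent.R350.Defs

/-! Row 350, part C: the level bound for decision trees. -/

set_option autoImplicit false
open Finset Function

namespace Crest.Agent.R350

section Level
variable {V : Type} [Fintype V] [DecidableEq V]

lemma sum_update_split (φ φ' : V → Bool → ℝ) (f : (V → Bool) → ℝ) (v : V)
    (h : ∀ w, w ≠ v → φ' w = φ w) (h1 : ∑ b, φ' v b = 1) :
    ∑ y : V → Bool, f y * ∏ w, φ w (y w) =
      ∑ b, φ v b * ∑ y : V → Bool, f (update y v b) * ∏ w, φ' w (y w) := by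
  let Q : (V → Bool) → ℝ := fun y => ∏ w ∈ univ.erase v, φ w (y w)
  have hQ : ∀ y b, Q (update y v b) = Q y := fun y b =>
    prod_congr rfl fun w hw => by rw [update_of_ne (ne_of_mem_erase hw)]
  have h2 : ∀ y : V → Bool, ∏ w, φ w (y w) = φ v (y v) * Q y := fun y =>
    (mul_prod_erase univ (fun w => φ w (y w)) (mem_univ v)).symm
  have h3 : ∀ y : V → Bool, ∏ w, φ' w (y w) = φ' v (y v) * Q y := fun y => by
    rw [← mul_prod_erase univ (fun w => φ' w (y w)) (mem_univ v)]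
    congr 1
    exact prod_congr rfl fun w hw => by rw [h w (ne_of_mem_erase hw)]
  have hinv : Involutive fun z : Bool × (V → Bool) => (z.2 v, update z.2 v z.1) := fun z => by simp
  simp only [h2, h3, mul_sum]
  rw [← Fintype.sum_prod_type', ← Equiv.sum_comp hinv.toPerm, Fintype.sum_prod_type, sum_comm]
  refine sum_congr rfl fun y _ => ?_
  simp only [Involutive.coe_toPerm, update_idem, update_eq_self, update_self, hQ]
  rw [← one_mul (f y * _), ← h1, sum_mul]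
  exact sum_congr rfl fun b _ => by ring

lemma Dv_of_notMem {B : Finset V} {v : V} (hv : v ∉ B) (f : (V → Bool) → ℝ) (Z : V → ℝ) :
    Dv B f Z = ∑ b, (1 + sg b * Z v) / 2 * Dv B (fun y => f (update y v b)) Z := by
  have := sum_update_split (fun w b => if w ∈ B then sg b / 2 else (1 + sg b * Z w) / 2) _ f v
    (fun _ _ => rfl) (by simp [hv]; ring)
  simpa only [Dv, if_neg hv] using this

lemma Dv_insert {B : Finset V} {v : V} (hv : v ∉ B) (f : (V → Bool) → ℝ) (Z : V → ℝ) :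
    Dv (insert v B) f Z = ∑ b, sg b / 2 * Dv B (fun y => f (update y v b)) Z := by
  have := sum_update_split (fun w b => if w ∈ insert v B then sg b / 2 else (1 + sg b * Z w) / 2)
    (fun w b => if w ∈ B then sg b / 2 else (1 + sg b * Z w) / 2) f v
    (fun w hw => by simp [hw]) (by simp [hv]; ring)
  simpa only [Dv, if_pos (mem_insert_self v B)] using this

lemma Dv_const (B : Finset V) (c : ℝ) (Z : V → ℝ) :
    Dv B (fun _ => c) Z = if B = ∅ then c else 0 := by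
  have := Fintype.prod_sum fun (w : V) (b : Bool) =>
    if w ∈ B then sg b / 2 else (1 + sg b * Z w) / 2
  rw [Dv, ← mul_sum, ← this]
  split_ifs with h
  · subst h
    rw [prod_eq_one fun w _ => by simp; ring, mul_one]
  · obtain ⟨w, hw⟩ := nonempty_iff_ne_empty.mpr h
    rw [prod_eq_zero (mem_univ w) (by simp [hw]; ring), mul_zero]

lemma sum_finset_split (v : V) (F : Finset V → ℝ) :
    ∑ B, F B = ∑ B ∈ (univ.erase v).powerset, (F B + F (insert v B)) := by
  rw [sum_add_distrib, ← sum_powerset_insert (notMem_erase v univ), insert_erase (mem_univ v),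
    powerset_univ]

lemma taylor_two (X u : ℝ) (m : ℕ) :
    |(X + u) ^ (m + 2) - X ^ (m + 2) - (m + 2) * X ^ (m + 1) * u| ≤
      (m + 2) ^ 2 / 2 * u ^ 2 * (|X| + |u|) ^ m := by
  induction m with
  | zero =>
    rw [show (X + u) ^ (0 + 2) - X ^ (0 + 2) - (((0 : ℕ) : ℝ) + 2) * X ^ (0 + 1) * u = u ^ 2 by
      push_cast; ring, abs_of_nonneg (sq_nonneg u)]
    push_cast; nlinarith [sq_nonneg u]
  | succ m ih =>
    have e : (X + u) ^ (m + 1 + 2) - X ^ (m + 1 + 2) - ((m + 1 : ℕ) + 2) * X ^ (m + 1 + 1) * u =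
        (X + u) * ((X + u) ^ (m + 2) - X ^ (m + 2) - (m + 2) * X ^ (m + 1) * u) +
          (m + 2) * X ^ (m + 1) * u ^ 2 := by push_cast; ring
    have hA : 0 ≤ |X| + |u| := by positivity
    have h1 : |(m + 2) * X ^ (m + 1) * u ^ 2| ≤ (m + 2) * (|X| + |u|) ^ (m + 1) * u ^ 2 := by
      rw [abs_mul, abs_mul, abs_pow, abs_of_nonneg (sq_nonneg u),
        abs_of_nonneg (by positivity : (0 : ℝ) ≤ m + 2)]
      gcongr
      exact le_add_of_nonneg_right (abs_nonneg u)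
    have h2 := mul_le_mul (abs_add_le X u) ih (abs_nonneg _) hA
    rw [← abs_mul] at h2
    rw [e]
    refine (abs_add_le _ _).trans ((add_le_add h2 h1).trans ?_)
    have h3 : 0 ≤ (|X| + |u|) ^ (m + 1) * u ^ 2 := by positivity
    push_cast
    calc _ = ((m + 2) ^ 2 / 2 + (m + 2)) * ((|X| + |u|) ^ (m + 1) * u ^ 2) := by ring
      _ ≤ ((m + 1 + 2) ^ 2 / 2) * ((|X| + |u|) ^ (m + 1) * u ^ 2) := by
          gcongr; nlinarith
      _ = _ := by ring

lemma rem_le {m : ℕ} {s : ℝ} (hs : 1 ≤ s) {x y : ℝ} (hx : 0 ≤ x) (hy : 0 ≤ y) :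
    2 * (m + 2) ^ 2 * y ^ 2 * (x + 2 * y) ^ m ≤
      2 / s ^ 2 * x ^ (m + 2) + (6 * (m + 2) * s) ^ (m + 2) * y ^ (m + 2) := by
  have hm : (0 : ℝ) ≤ m := Nat.cast_nonneg m
  rcases le_total (2 * (m + 2) * s * y) x with h | h
  · refine le_add_of_le_of_nonneg ?_ (by positivity)
    have h1 : x + 2 * y ≤ x * (1 / (m + 2) + 1) := by
      rw [mul_add, mul_one, add_comm, add_le_add_iff_right, mul_one_div, le_div_iff₀ (by positivity)]
      nlinarith [mul_nonneg (mul_nonneg hy (by positivity : (0 : ℝ) ≤ m + 2)) (sub_nonneg.2 hs)]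
    have h2 : (1 / ((m : ℝ) + 2) + 1) ^ m ≤ 4 := by
      calc _ ≤ Real.exp (1 / (m + 2)) ^ m := by gcongr; exact Real.add_one_le_exp _
        _ = Real.exp (m * (1 / (m + 2))) := (Real.exp_nat_mul _ _).symm
        _ ≤ Real.exp 1 := by
            gcongr; rw [mul_one_div, div_le_one (by positivity)]; linarith
        _ ≤ 4 := by linarith [Real.exp_one_lt_d9]
    have h3 : (x + 2 * y) ^ m ≤ x ^ m * 4 := by
      refine (pow_le_pow_left₀ (by positivity) h1 m).trans ?_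
      rw [mul_pow]; gcongr
    have h4 : (2 * (m + 2) * s * y) ^ 2 ≤ x ^ 2 := by gcongr
    rw [div_mul_eq_mul_div, le_div_iff₀ (by positivity)]
    calc _ ≤ 2 * (m + 2) ^ 2 * y ^ 2 * (x ^ m * 4) * s ^ 2 := by gcongr
      _ = 2 * x ^ m * (2 * (m + 2) * s * y) ^ 2 := by ring
      _ ≤ 2 * x ^ m * x ^ 2 := by gcongr
      _ = _ := by ring
  · refine le_add_of_nonneg_of_le (by positivity) ?_
    have h1 : x + 2 * y ≤ 6 * (m + 2) * s * y := by
      nlinarith [mul_nonneg (mul_nonneg hy (by positivity : (0 : ℝ) ≤ m + 2)) (sub_nonneg.2 hs),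
        mul_nonneg hy hm]
    calc _ ≤ (6 * (m + 2) * s) ^ 2 * y ^ 2 * (6 * (m + 2) * s * y) ^ m := by
          gcongr
          have : (1 : ℝ) ≤ s ^ 2 := one_le_pow₀ hs
          nlinarith [sq_nonneg ((m : ℝ) + 2)]
      _ = _ := by generalize 6 * ((m : ℝ) + 2) * s = t; ring

lemma step_le {m : ℕ} (hn : Even (m + 2)) {s : ℝ} (hs : 1 ≤ s) {z : ℝ} (hz : |z| ≤ 1 / 2)
    (X Y : ℝ) :
    ∑ b, (1 + sg b * z) / 2 * (X + sg b / (1 + sg b * z) * Y) ^ (m + 2) ≤
      (1 + 2 / s ^ 2) * X ^ (m + 2) + (6 * (m + 2) * s) ^ (m + 2) * Y ^ (m + 2) := by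
  have hz' := abs_le.1 hz
  have hp : ∀ b, 1 / 2 ≤ 1 + sg b * z := fun b => by cases b <;> simp <;> linarith
  have h1 : ∀ b, (1 + sg b * z) / 2 * (X + sg b / (1 + sg b * z) * Y) ^ (m + 2) ≤
      (1 + sg b * z) / 2 * (X ^ (m + 2) + 2 * (m + 2) ^ 2 * |Y| ^ 2 * (|X| + 2 * |Y|) ^ m) +
        sg b / 2 * ((m + 2) * X ^ (m + 1) * Y) := fun b => by
    have hb := hp b
    set u := sg b / (1 + sg b * z) * Y with hu
    have hu2 : |u| ≤ 2 * |Y| := by
      rw [hu, abs_mul, abs_div, abs_sg, abs_of_pos (by linarith : 0 < 1 + sg b * z)]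
      gcongr
      rw [div_le_iff₀ (by linarith)]; linarith
    have h2 := (le_abs_self _).trans (taylor_two X u m)
    have h3 : ((m : ℝ) + 2) ^ 2 / 2 * u ^ 2 * (|X| + |u|) ^ m ≤
        2 * (m + 2) ^ 2 * |Y| ^ 2 * (|X| + 2 * |Y|) ^ m := by
      rw [← sq_abs u]
      calc _ ≤ ((m : ℝ) + 2) ^ 2 / 2 * (2 * |Y|) ^ 2 * (|X| + 2 * |Y|) ^ m := by gcongr
        _ = _ := by ring
    have h4 : sg b / 2 * ((m + 2) * X ^ (m + 1) * Y) =
        (1 + sg b * z) / 2 * ((m + 2) * X ^ (m + 1) * u) := by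
      rw [hu]; field_simp
    rw [h4, ← mul_add]
    gcongr
    linarith
  refine (sum_le_sum fun b _ => h1 b).trans ?_
  have h5 := rem_le (m := m) hs (abs_nonneg X) (abs_nonneg Y)
  rw [hn.pow_abs, hn.pow_abs] at h5
  simp only [Fintype.sum_bool, sg_true, sg_false]
  linarith

lemma level_aux {m : ℕ} (hn : Even (m + 2)) {s : ℝ} (hs : 1 ≤ s) {Z : V → ℝ}
    (hZ : ∀ v, |Z v| ≤ 1 / 2) (d : ℕ) : ∀ (f : (V → Bool) → ℝ) (g : Finset V → ℝ), DT d f →
      (∀ y, |f y| ≤ 1) → (∑ B, g B * Dv B f Z) ^ (m + 2) ≤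
        (1 + 2 / s ^ 2) ^ d * ∑ B, ((6 * (m + 2) * s) ^ (m + 2)) ^ #B * g B ^ (m + 2) := by
  have hq : 1 ≤ 1 + 2 / s ^ 2 := le_add_of_nonneg_right (by positivity)
  have hev : ∀ x : ℝ, 0 ≤ x ^ (m + 2) := hn.pow_nonneg
  have leaf : ∀ (d : ℕ) (f : (V → Bool) → ℝ) (g : Finset V → ℝ), (∃ c, ∀ y, f y = c) →
      (∀ y, |f y| ≤ 1) → (∑ B, g B * Dv B f Z) ^ (m + 2) ≤
        (1 + 2 / s ^ 2) ^ d * ∑ B, ((6 * (m + 2) * s) ^ (m + 2)) ^ #B * g B ^ (m + 2) := by
    rintro d f g ⟨c, hc⟩ hf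
    obtain rfl : f = fun _ => c := funext hc
    have h1 : c ^ (m + 2) ≤ 1 := by
      rw [← hn.pow_abs]; exact pow_le_one₀ (abs_nonneg _) (hf fun _ => false)
    have h2 := single_le_sum (f := fun B : Finset V =>
      ((6 * (m + 2) * s) ^ (m + 2)) ^ #B * g B ^ (m + 2))
      (fun B _ => mul_nonneg (by positivity) (hev _)) (mem_univ ∅)
    simp only [card_empty, pow_zero, one_mul] at h2
    simp only [Dv_const, mul_ite, mul_zero, sum_ite_eq', mem_univ, if_true, mul_pow (g ∅)]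
    refine (mul_le_of_le_one_right (hev _) h1).trans (h2.trans ?_)
    exact le_mul_of_one_le_left ((hev _).trans h2) (one_le_pow₀ hq)
  induction d with
  | zero => exact fun f g hf => leaf 0 f g hf
  | succ d ih =>
    rintro f g (hf | ⟨v, hf⟩) hf1
    · exact leaf _ f g hf hf1
    have hz' := abs_le.1 (hZ v)
    have hp : ∀ b, 0 < 1 + sg b * Z v := fun b => by cases b <;> simp <;> linarith
    let G : Bool → Finset V → ℝ := fun b B =>
      if v ∈ B then 0 else g B + sg b / (1 + sg b * Z v) * g (insert v B)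
    have hmem : ∀ B ∈ (univ.erase v).powerset, v ∉ B := fun B hB h =>
      notMem_erase v univ (mem_powerset.1 hB h)
    have e1 : ∑ B, g B * Dv B f Z =
        ∑ b, ((1 + sg b * Z v) / 2) • ∑ B, G b B * Dv B (fun y => f (update y v b)) Z := by
      simp only [sum_finset_split v, smul_eq_mul, mul_sum]
      rw [sum_comm]
      refine sum_congr rfl fun B hB => ?_
      rw [Dv_of_notMem (hmem B hB), Dv_insert (hmem B hB), mul_sum, mul_sum, ← sum_add_distrib]
      refine sum_congr rfl fun b _ => ?_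
      have := (hp b).ne'
      simp only [G, if_neg (hmem B hB), if_pos (mem_insert_self v B)]
      field_simp
      ring
    have e2 : ∑ b, (1 + sg b * Z v) / 2 *
        ∑ B, ((6 * (m + 2) * s) ^ (m + 2)) ^ #B * G b B ^ (m + 2) ≤
        (1 + 2 / s ^ 2) * ∑ B, ((6 * (m + 2) * s) ^ (m + 2)) ^ #B * g B ^ (m + 2) := by
      simp only [sum_finset_split v, mul_sum]
      rw [sum_comm]
      refine sum_le_sum fun B hB => ?_
      have h1 := mul_le_mul_of_nonneg_left (step_le hn hs (hZ v) (g B) (g (insert v B)))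
        (by positivity : (0 : ℝ) ≤ ((6 * (m + 2) * s) ^ (m + 2)) ^ #B)
      have h2 := le_mul_of_one_le_left (mul_nonneg (by positivity :
        (0 : ℝ) ≤ ((6 * (m + 2) * s) ^ (m + 2)) ^ (#B + 1)) (hev (g (insert v B)))) hq
      rw [mul_sum] at h1
      simp only [G, if_neg (hmem B hB), if_pos (mem_insert_self v B), ne_eq, Nat.add_eq_zero_iff,
        OfNat.ofNat_ne_zero, and_false, not_false_eq_true, zero_pow, mul_zero, add_zero,
        card_insert_of_notMem (hmem B hB)]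
      refine le_trans (le_of_eq (sum_congr rfl fun b _ => by ring)) (h1.trans ?_)
      rw [mul_add (1 + 2 / s ^ 2)]
      refine le_trans (le_of_eq ?_) (add_le_add le_rfl h2)
      ring
    rw [e1]
    refine ((hn.convexOn_pow (𝕜 := ℝ)).map_sum_le (fun b _ => by have := hp b; positivity)
      (by simp; ring) fun _ _ => Set.mem_univ _).trans ?_
    refine le_trans (sum_le_sum fun b _ => mul_le_mul_of_nonneg_left
      (ih _ (G b) (hf b) fun y => hf1 _) (by have := hp b; positivity)) ?_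
    rw [pow_succ _ d, mul_assoc (_ ^ d)]
    refine le_trans (le_of_eq ?_) (mul_le_mul_of_nonneg_left e2 (by positivity))
    rw [mul_sum]
    exact sum_congr rfl fun b _ => by ring

end Level

/-- For `g : Finset V → ℝ` put `L g f = ∑ B, g B * Dv B f Z` and `Ψ g = ∑ B, λ ^ #B * g B ^ n` with
`λ = (6 n √D) ^ n`. Claim (induction on `d`, all `g`, `f`): `(L g f) ^ n ≤ (1 + 2/D) ^ d * Ψ g`.
Leaf `f = c`: `Dv B f Z = if B = ∅ then c else 0` (`Finset.prod_univ_sum`/`Fintype.piFinset`), so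
`L = g ∅ * c`. Root variable `v`, `f_b = fun y => f (update y v b)`, `p_b = (1 + sg b * Z v)/2`,
`ξ_b = sg b / (1 + sg b * Z v)` (so `∑ p_b = 1`, `∑ p_b ξ_b = 0`, `|ξ_b| ≤ 2`):
`Dv B f Z = ∑ b, p_b * Dv B f_b Z` for `v ∉ B`, and
`Dv (insert v B) f Z = ∑ b, sg b / 2 * Dv B f_b Z` for `v ∉ B`; hence `L g f = ∑ b, p_b * L g_b f_b` with
`g_b B = if v ∈ B then 0 else g B + ξ_b * g (insert v B)`. Convexity of `x ^ n` (`n` even) gives
`L ^ n ≤ ∑ p_b (L g_b f_b) ^ n`. Finally `∑ p_b Ψ g_b ≤ (1 + 2/D) Ψ g`: with `X = g B`,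
`Y = g (insert v B)`, `u = ξ_b Y`, the Taylor bound
`(X+u)^n ≤ X^n + n X^(n-1) u + n²/2 * u² (|X|+|u|)^(n-2)` (induction on `n` for the absolute value of
the remainder) reduces it to `2 n² Y² (|X| + 2|Y|)^(n-2) ≤ (2/D) X^n + λ Y^n`: if
`2 n √D |Y| ≤ |X|` use `(1 + 1/n)^(n-2) ≤ e ≤ 4`; otherwise `|X| + 2|Y| ≤ 3 n √D |Y|`.
Apply the claim to `g B = ∑ π, if B π = B then W π else 0`, `Ψ g ≤ 2^n λ^K u^n`,
`(1 + 2/D)^d ≤ e² ≤ 9 ≤ 3^n` (`P` empty or `u ≥ 0`). -/
theorem level_bound {V P : Type} [Fintype V] [DecidableEq V] [Fintype P] {n D d K : ℕ}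
    (hn : Even n) (hn2 : 2 ≤ n) (hD : 1 ≤ D) (hd : d ≤ D) {f : (V → Bool) → ℝ} (hf : DT d f)
    (hf1 : ∀ y, |f y| ≤ 1) {Z : V → ℝ} (hZ : ∀ v, |Z v| ≤ 1 / 2) (B : P → Finset V)
    (hB : Injective B) (hK : ∀ π, (B π).card = K) (W : P → ℝ) {u : ℝ} (hu : 0 ≤ u)
    (hW : ∀ π, |W π| ≤ u) (hP : Fintype.card P ≤ 2 ^ n) :
    |∑ π, W π * Dv (B π) f Z| ≤ 6 * (6 * n * √D) ^ K * u := by
  obtain ⟨m, rfl⟩ : ∃ m, n = m + 2 := ⟨n - 2, by omega⟩
  have hD' : (1 : ℝ) ≤ D := by exact_mod_cast hD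
  have hs : (1 : ℝ) ≤ √D := Real.one_le_sqrt.2 hD'
  have key := level_aux hn hs hZ d f (extend B W 0) hf hf1
  have hsum : ∀ F : Finset V → ℝ → ℝ, (∀ S, F S 0 = 0) →
      ∑ S, F S (extend B W 0 S) = ∑ π, F (B π) (W π) := fun F hF => by
    symm
    refine sum_of_injOn B hB.injOn (fun _ _ => mem_univ _) (fun S _ hS => ?_) fun π _ => ?_
    · rw [extend_apply' _ _ _ (by simpa using hS), Pi.zero_apply, hF]
    · rw [hB.extend_apply]
  rw [hsum (fun S x => x * Dv S f Z) fun _ => zero_mul _,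
    hsum (fun S x => ((6 * (m + 2) * √D) ^ (m + 2)) ^ #S * x ^ (m + 2)) (by simp),
    Real.sq_sqrt (by positivity)] at key
  have h1 : (1 + 2 / (D : ℝ)) ^ d ≤ 3 ^ (m + 2) := by
    calc _ ≤ (1 + 2 / (D : ℝ)) ^ D :=
          pow_le_pow_right₀ (le_add_of_nonneg_right (by positivity)) hd
      _ ≤ Real.exp (2 / D) ^ D := by gcongr; rw [add_comm]; exact Real.add_one_le_exp _
      _ = Real.exp 1 ^ 2 := by
          rw [← Real.exp_nat_mul, ← Real.exp_nat_mul]; congr 1; field_simp; norm_num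
      _ ≤ 3 ^ 2 := by gcongr; linarith [Real.exp_one_lt_d9]
      _ ≤ _ := pow_le_pow_right₀ (by norm_num) hn2
  have h2 : ∑ π, ((6 * (m + 2) * √D) ^ (m + 2)) ^ #(B π) * W π ^ (m + 2) ≤
      2 ^ (m + 2) * (((6 * (m + 2) * √D) ^ (m + 2)) ^ K * u ^ (m + 2)) := by
    refine (sum_le_card_nsmul _ _ (((6 * (m + 2) * √D) ^ (m + 2)) ^ K * u ^ (m + 2))
      fun π _ => ?_).trans ?_
    · rw [hK, ← hn.pow_abs (W π)]
      gcongr
      exact hW π
    · rw [nsmul_eq_mul, card_univ]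
      gcongr
      exact_mod_cast hP
  rw [← hn.pow_abs] at key
  refine le_of_pow_le_pow_left₀ (n := m + 2) (by omega) (by positivity) (key.trans ?_)
  refine (mul_le_mul h1 h2 (sum_nonneg fun π _ => mul_nonneg (by positivity) (hn.pow_nonneg _))
    (by positivity)).trans (le_of_eq ?_)
  push_cast
  generalize 6 * ((m : ℝ) + 2) * √D = t
  rw [← mul_assoc, ← mul_pow, pow_right_comm, ← mul_pow, ← mul_pow]
  congr 1; ring

end Crest.Agent.R350
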