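import Crest.Agent.R350.LowerAux

/-! Row 350, part E: the abstract randomized lower bound. -/

set_option autoImplicit false
open Finset Function Crest.MathPhysics.Query

namespace Crest.Agent.R350

/-- Hybrid argument: change one coordinate `c` at a time from `false` to `σ c` (induction on a
finset `s` of changed coordinates); with the other coordinates fixed,
`y ↦ G (update Y c y)` is `DT d` by `DT.subst`. -/
lemma hybrid {C V : Type} [Fintype C] [DecidableEq C] [Fintype V] [DecidableEq V]
    (μ : Bool → (V → Bool) → ℝ) (hμ0 : ∀ σ y, 0 ≤ μ σ y) (hμ1 : ∀ σ, ∑ y, μ σ y = 1) {d : ℕ} {ε : ℝ}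
    (hind : ∀ f : (V → Bool) → ℝ, DT d f → (∀ y, |f y| ≤ 1) →
      |∑ y, μ true y * f y - ∑ y, μ false y * f y| ≤ ε)
    (σ : C → Bool) (G : (C × V → Bool) → ℝ) (hG : DT d G) (hG1 : ∀ y, |G y| ≤ 1) :
    ∑ Y : C → V → Bool, (∏ c, μ (σ c) (Y c)) * G (fun i => Y i.1 i.2) ≤
      ∑ Y : C → V → Bool, (∏ c, μ false (Y c)) * G (fun i => Y i.1 i.2) + Fintype.card C * ε := by
  have hε : 0 ≤ ε := by
    simpa using hind (fun _ => 0) (DT.const d 0) (by simp)
  have key : ∀ s : Finset C,
      ∑ Y : C → V → Bool, (∏ c, μ (if c ∈ s then σ c else false) (Y c)) * G (fun i => Y i.1 i.2) ≤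
      ∑ Y : C → V → Bool, (∏ c, μ false (Y c)) * G (fun i => Y i.1 i.2) + s.card * ε := by
    intro s
    induction s using Finset.induction_on with
    | empty => simp
    | insert k s hk ih =>
      rw [card_insert_of_notMem hk]
      have e₁ := resample (fun c => μ (if c ∈ insert k s then σ c else false))
        (fun c => μ (if c ∈ s then σ c else false)) k
        (fun i hi => by simp [hi]) (hμ1 _) (fun Y => G (fun i => Y i.1 i.2))
      have e₂ := resample (fun c => μ (if c ∈ s then σ c else false))
        (fun c => μ (if c ∈ s then σ c else false)) k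
        (fun i hi => rfl) (hμ1 _) (fun Y => G (fun i => Y i.1 i.2))
      simp only [mem_insert_self, if_true, hk, if_false] at e₁ e₂
      have h₃ := avg_le (fun Y : C → V → Bool => ∏ c, μ (if c ∈ s then σ c else false) (Y c))
        (fun Y => prod_nonneg fun c _ => hμ0 _ _) (sum_prod_weight _ fun c => hμ1 _)
        (fun Y => ∑ u, μ (σ k) u * G (fun i => update Y k u i.1 i.2) -
          ∑ u, μ false u * G (fun i => update Y k u i.1 i.2)) (B := ε) (fun Y => by
            rcases σ k with _ | _
            · simpa using hε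
            · refine (le_abs_self _).trans (hind (fun u => G (fun i => update Y k u i.1 i.2)) ?_
                fun y => hG1 _)
              convert hG.subst (fun i => if i.1 = k then Sum.inr i.2 else Sum.inl (Y i.1 i.2))
                using 3 with u
              ext i
              by_cases hi : i.1 = k
              · simp [hi]
              · simp [hi])
      simp only [mul_sub, sum_sub_distrib] at h₃
      rw [e₁]
      rw [e₂] at ih
      push_cast
      linarith
  simpa using key univ

section Hard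
variable {R M C V Ad Ce : Type} [DecidableEq R] [DecidableEq M]

/-- the content of one row -/
def rowx (o : Option M) (Y : C → V → Bool) : M ⊕ (C × V) ⊕ (Ad × Ce) → Bool
  | .inl a => decide (o = some a)
  | .inr (.inl i) => Y i.1 i.2
  | .inr (.inr _) => false

/-- the hard input -/
def xin (ω : R → M × Ad × (C → V → Bool)) : Idx R M C V Ad Ce → Bool :=
  fun i => rowx (some (ω i.1).1) (ω i.1).2.2 i.2

/-- the hard input with row `r` unmarked -/
def xzero (ω : R → M × Ad × (C → V → Bool)) (r : R) (Y : C → V → Bool) :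
    Idx R M C V Ad Ce → Bool :=
  fun i => if i.1 = r then rowx none Y i.2 else xin ω i

lemma xzero_update (ω : R → M × Ad × (C → V → Bool)) (r : R) (u : M × Ad × (C → V → Bool))
    (Y : C → V → Bool) : (xzero (update ω r u) r Y : Idx R M C V Ad Ce → Bool) = xzero ω r Y := by
  ext i
  by_cases hi : i.1 = r
  · simp [xzero, hi]
  · simp [xzero, xin, hi]

/-- the mark read at a position -/
def labM (i : Idx R M C V Ad Ce) : Option M :=
  match i.2 with
  | .inl a => some a
  | .inr _ => none

/-- the cell read at a position -/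
def labA (i : Idx R M C V Ad Ce) : Option Ad :=
  match i.2 with
  | .inl _ => none
  | .inr (.inl _) => none
  | .inr (.inr z) => some z.1

lemma hit_xzero_DT [DecidableEq C] [DecidableEq V] [DecidableEq Ad] {n : ℕ}
    (e : Fin n → Idx R M C V Ad Ce)
    (ω : R → M × Ad × (C → V → Bool)) (r : R) (α : Ad) (T : DTree n) (d : ℕ) :
    DT d fun y : C × V → Bool =>
      hit e Prod.fst r labA α (xzero ω r fun c v => y (c, v)) T d := by
  convert hit_DT e Prod.fst r labA α (J := C × V)
    (fun i => if i.1 = r then (match i.2 with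
      | .inl _ => Sum.inl false
      | .inr (.inl j) => Sum.inr j
      | .inr (.inr _) => Sum.inl false) else Sum.inl (xin ω i))
    (fun i hi => ⟨xin ω i, by simp [hi]⟩) T d using 3 with y
  ext ⟨r', j⟩
  by_cases hi : r' = r
  · rcases j with a | j | z <;> simp [xzero, hi, rowx]
  · simp [xzero, hi]

end Hard

/-- Hard distribution: every row `r` independently gets `ω r = (a, α, Y)` with `a : M`, `α : Ad`
uniform and `Y ∼ ∏ c, μ (bit α c)`; the input `x ω` has, in row `r`, exactly the mark `a` true, the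
instance bits `Y`, and all cell bits false, so `F (x ω) = false`. For a row `r` let `x⁰` be `x ω` with
the mark of row `r` erased, and, when `good α Y`, let `x'` be given by `h1` (`F x' = true`); `x ω`,
`x⁰`, `x'` agree off `S = {(r, inl a)} ∪ cell (r, α)`.
For a tree `T` define by recursion `cnt r T x` (number of reads in row `r`) and `H r S d T x : Bool`
(the run on `x` reads an index in `S` among its first `d` reads in row `r`; at a read in row `r`:
`false` if `d = 0`, `true` if the index is in `S`, else continue with `d - 1`; at a read in another row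
continue with `d`). Lemmas: (1) `eval T (x ω) ≠ eval T x' → H r S d T x⁰ ∨ d < cnt r T (x ω)`;
(2) `∑ r, cnt r T x ≤ depth T`; (3) `H r (S₁ ∪ S₂) ≤ H r S₁ + H r S₂`; (4) for pairwise disjoint
`S a`, `∑ a, H r (S a) d T x ≤ d`; (5) with the other rows fixed, `H r S d T` is `DT d` in the bits of
row `r`. Averaging over `T`, `ω` and a uniform `r`:
`(2/3)(1 - η) - 1/3 ≤ P[eval differ] ≤ q/(|R|(d+1)) + d/|M| + (d/|Ad| + |C| ε)`, since `x⁰` does not
depend on `a`, and depends on `α` only through the law of `Y` (`hybrid`, then (4)). -/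
theorem lower_bound {R M C V Ad Ce : Type} [Fintype R] [DecidableEq R] [Fintype M] [DecidableEq M]
    [Fintype C] [DecidableEq C] [Fintype V] [DecidableEq V] [Fintype Ad] [DecidableEq Ad]
    [Fintype Ce] [DecidableEq Ce] [Nonempty R] [Nonempty M] [Nonempty Ad]
    (F : (Idx R M C V Ad Ce → Bool) → Bool) (bit : Ad → C → Bool)
    (μ : Bool → (V → Bool) → ℝ) (hμ0 : ∀ σ y, 0 ≤ μ σ y) (hμ1 : ∀ σ, ∑ y, μ σ y = 1)
    {d : ℕ} {ε η : ℝ}
    (hind : ∀ f : (V → Bool) → ℝ, DT d f → (∀ y, |f y| ≤ 1) →
      |∑ y, μ true y * f y - ∑ y, μ false y * f y| ≤ ε)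
    (good : Ad → (C → V → Bool) → Prop) [∀ α, DecidablePred (good α)]
    (hgood : ∀ α, ∑ Y : C → V → Bool, (if good α Y then 0 else ∏ c, μ (bit α c) (Y c)) ≤ η)
    (h0 : ∀ x, (∀ r, ∃ a, x (r, .inl a) = true) → F x = false)
    (h1 : ∀ (x : Idx R M C V Ad Ce → Bool) r α, (∀ a, x (r, .inl a) = false) →
      (∀ r', r' ≠ r → ∃ a, x (r', .inl a) = true) → good α (fun c v => x (r, .inr (.inl (c, v)))) →
      ∃ x', (∀ i, (∀ z, i ≠ (r, .inr (.inr (α, z)))) → x' i = x i) ∧ F x' = true)
    {n : ℕ} (e : Fin n ≃ Idx R M C V Ad Ce) {q : ℕ}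
    (hq : RandomizedComputes (fun x : Fin n → Bool => F fun i => x (e.symm i)) q) :
    1 / 3 - 2 / 3 * η - d / Fintype.card M - d / Fintype.card Ad - Fintype.card C * ε ≤
      q / (Fintype.card R * (d + 1) : ℝ) := by
  obtain ⟨s, p, T, hp0, hp1, hT, hacc⟩ := hq
  have hacc' : ∀ z : Idx R M C V Ad Ce → Bool,
      2 / 3 ≤ ∑ j, if (T j).eval (fun i => z (e i)) = F z then p j else 0 := by
    intro z
    simpa using hacc fun i => z (e i)
  have hM : (0 : ℝ) < Fintype.card M := by exact_mod_cast Fintype.card_pos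
  have hA : (0 : ℝ) < Fintype.card Ad := by exact_mod_cast Fintype.card_pos
  have hR : (0 : ℝ) < Fintype.card R := by exact_mod_cast Fintype.card_pos
  have hd : (0 : ℝ) < d + 1 := by positivity
  set P : Ad → (C → V → Bool) → ℝ := fun α Y => ∏ c, μ (bit α c) (Y c) with hP
  have hP0 : ∀ α Y, 0 ≤ P α Y := fun α Y => prod_nonneg fun c _ => hμ0 _ _
  have hP1 : ∀ α, ∑ Y, P α Y = 1 := fun α => sum_prod_weight _ fun c => hμ1 _
  have hη : 0 ≤ η := by
    obtain ⟨α⟩ := ‹Nonempty Ad›
    refine le_trans (sum_nonneg fun Y _ => ?_) (hgood α)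
    split_ifs
    · exact le_rfl
    · exact hP0 α Y
  set w : M × Ad × (C → V → Bool) → ℝ :=
    fun u => (Fintype.card M : ℝ)⁻¹ * (Fintype.card Ad : ℝ)⁻¹ * P u.2.1 u.2.2 with hw
  have hw0 : ∀ u, 0 ≤ w u := fun u => mul_nonneg (by positivity) (hP0 _ _)
  have hE : ∀ g : M × Ad × (C → V → Bool) → ℝ, ∑ u, w u * g u =
      (Fintype.card M : ℝ)⁻¹ * (Fintype.card Ad : ℝ)⁻¹ * ∑ a, ∑ α, ∑ Y, P α Y * g (a, α, Y) := by
    intro g
    simp only [Fintype.sum_prod_type, mul_sum, hw, mul_assoc]
  have hw1 : ∑ u, w u = 1 := by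
    have := hE fun _ => 1
    simp only [mul_one, hP1, sum_const, card_univ, nsmul_eq_mul] at this
    rw [this]
    field_simp
  set W : (R → M × Ad × (C → V → Bool)) → ℝ := fun ω => ∏ r, w (ω r) with hW
  have hW0 : ∀ ω, 0 ≤ W ω := fun ω => prod_nonneg fun r _ => hw0 _
  have hW1 : ∑ ω, W ω = 1 := sum_prod_weight (fun _ => w) fun _ => hw1
  set bad : R → (R → M × Ad × (C → V → Bool)) → ℝ :=
    fun r ω => if good (ω r).2.1 (ω r).2.2 then 0 else 1 with hbad
  set H₁ : Fin s → R → (R → M × Ad × (C → V → Bool)) → ℝ :=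
    fun j r ω => hit e Prod.fst r labM (ω r).1 (xzero ω r (ω r).2.2) (T j) d with hH₁
  set H₂ : Fin s → R → (R → M × Ad × (C → V → Bool)) → ℝ :=
    fun j r ω => hit e Prod.fst r labA (ω r).2.1 (xzero ω r (ω r).2.2) (T j) d with hH₂
  set N : Fin s → R → (R → M × Ad × (C → V → Bool)) → ℝ :=
    fun j r ω => cnt e Prod.fst r (xin ω) (T j) / (d + 1) with hN
  have hH₁0 : ∀ j r ω, 0 ≤ H₁ j r ω := fun j r ω => (hit_mem _ _ _ _ _ _ _ _).1
  have hH₂0 : ∀ j r ω, 0 ≤ H₂ j r ω := fun j r ω => (hit_mem _ _ _ _ _ _ _ _).1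
  have hN0 : ∀ j r ω, 0 ≤ N j r ω := fun j r ω => by positivity
  -- pointwise bound
  have hpt : ∀ r ω, 1 / 3 ≤ bad r ω / 3 + ∑ j, p j * (H₁ j r ω + H₂ j r ω + N j r ω) := by
    intro r ω
    by_cases hg : good (ω r).2.1 (ω r).2.2
    · have hb : bad r ω = 0 := if_pos hg
      obtain ⟨x', hx', hF'⟩ := h1 (xzero ω r (ω r).2.2) r (ω r).2.1
        (fun a => by simp [xzero, rowx])
        (fun r' hr' => ⟨(ω r').1, by simp [xzero, hr', xin, rowx]⟩)
        (by simpa [xzero, rowx] using hg)
      have hF : F (xin ω) = false := h0 _ fun r' => ⟨(ω r').1, by simp [xin, rowx]⟩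
      have a₁ := hacc' (xin ω)
      have a₂ := hacc' x'
      rw [hF] at a₁
      rw [hF'] at a₂
      have : ∑ j, (if (T j).eval (fun i => xin ω (e i)) = false then p j else 0) +
          ∑ j, (if (T j).eval (fun i => x' (e i)) = true then p j else 0) ≤
          ∑ j, p j + ∑ j, p j * (H₁ j r ω + H₂ j r ω + N j r ω) := by
        rw [← sum_add_distrib, ← sum_add_distrib]
        refine sum_le_sum fun j _ => ?_
        have h₁ := hH₁0 j r ω
        have h₂ := hH₂0 j r ω
        have h₃ := hN0 j r ω
        have h₄ := hp0 j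
        have h₅ : 0 ≤ p j * (H₁ j r ω + H₂ j r ω + N j r ω) := by positivity
        split_ifs with b₁ b₂ b₂
        · have := eval_ne e Prod.fst r labM (ω r).1 labA (ω r).2.1 (xin ω) (xzero ω r (ω r).2.2) x'
            (fun i hi => by
              obtain ⟨r', j⟩ := i
              constructor
              · by_cases hr' : r' = r
                · subst hr'
                  rcases j with a | j | z
                  · have : a ≠ (ω r').1 := by simpa [labM, labA] using hi
                    simp [xzero, xin, rowx, this.symm]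
                  · simp [xzero, xin, rowx]
                  · simp [xzero, xin, rowx]
                · simp [xzero, hr']
              · refine hx' _ fun z hz => hi ?_
                rw [hz]
                simp [labA]) (T j) d (by rw [b₁, b₂]; simp)
          have h₆ : 1 ≤ H₁ j r ω + H₂ j r ω + N j r ω := by
            rcases this with h | h
            · have : 1 ≤ H₁ j r ω + H₂ j r ω := h
              linarith
            · have : 1 ≤ N j r ω := by
                rw [hN, one_le_div hd]
                exact_mod_cast h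
              linarith
          nlinarith
        · linarith
        · linarith
        · linarith
      rw [hb]
      linarith
    · have hb : bad r ω = 1 := if_neg hg
      have : 0 ≤ ∑ j, p j * (H₁ j r ω + H₂ j r ω + N j r ω) :=
        sum_nonneg fun j _ => mul_nonneg (hp0 j)
          (add_nonneg (add_nonneg (hH₁0 j r ω) (hH₂0 j r ω)) (hN0 j r ω))
      rw [hb]
      linarith
  -- expectations
  have hEbad : ∀ r, ∑ ω, W ω * bad r ω ≤ η := by
    intro r
    refine resample_le (fun _ => w) (fun _ => hw0) (fun _ => hw1) r _ fun ω => ?_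
    rw [hE]
    simp only [hbad, update_self]
    have : ∑ a : M, ∑ α, ∑ Y, P α Y * (if good α Y then 0 else 1) ≤ ∑ a : M, ∑ α : Ad, η := by
      refine sum_le_sum fun a _ => sum_le_sum fun α _ => ?_
      simpa using hgood α
    simp only [sum_const, card_univ, nsmul_eq_mul] at this ⊢
    calc _ ≤ (Fintype.card M : ℝ)⁻¹ * (Fintype.card Ad : ℝ)⁻¹ *
          (Fintype.card M * (Fintype.card Ad * η)) :=
          mul_le_mul_of_nonneg_left this (by positivity)
      _ = η := by field_simp
  have hE₁ : ∀ j r, ∑ ω, W ω * H₁ j r ω ≤ d / Fintype.card M := by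
    intro j r
    refine resample_le (fun _ => w) (fun _ => hw0) (fun _ => hw1) r _ fun ω => ?_
    rw [hE]
    simp only [hH₁, update_self, xzero_update]
    have : ∑ a : M, ∑ α, ∑ Y, P α Y * hit e Prod.fst r labM a (xzero ω r Y) (T j) d ≤
        ∑ α : Ad, (d : ℝ) := by
      rw [sum_comm]
      refine sum_le_sum fun α _ => ?_
      rw [sum_comm]
      simp only [← mul_sum]
      exact avg_le _ (hP0 α) (hP1 α) _ fun Y => sum_hit_le _ _ _ _ _ _ _
    simp only [sum_const, card_univ, nsmul_eq_mul] at this
    calc _ ≤ (Fintype.card M : ℝ)⁻¹ * (Fintype.card Ad : ℝ)⁻¹ * (Fintype.card Ad * d) :=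
          mul_le_mul_of_nonneg_left this (by positivity)
      _ = _ := by field_simp
  have hE₂ : ∀ j r, ∑ ω, W ω * H₂ j r ω ≤ d / Fintype.card Ad + Fintype.card C * ε := by
    intro j r
    refine resample_le (fun _ => w) (fun _ => hw0) (fun _ => hw1) r _ fun ω => ?_
    rw [hE]
    simp only [hH₂, update_self, xzero_update]
    have : ∑ α, ∑ Y, P α Y * hit e Prod.fst r labA α (xzero ω r Y) (T j) d ≤
        d + Fintype.card Ad * (Fintype.card C * ε) := by
      calc _ ≤ ∑ α, (∑ Y : C → V → Bool, (∏ c, μ false (Y c)) *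
            hit e Prod.fst r labA α (xzero ω r Y) (T j) d + Fintype.card C * ε) := by
            refine sum_le_sum fun α _ => ?_
            exact hybrid μ hμ0 hμ1 hind (bit α) _ (hit_xzero_DT e ω r α (T j) d) fun y => by
              rw [abs_of_nonneg (hit_mem _ _ _ _ _ _ _ _).1]
              exact (hit_mem _ _ _ _ _ _ _ _).2
        _ ≤ _ := by
            rw [sum_add_distrib, sum_comm]
            simp only [← mul_sum, sum_const, card_univ, nsmul_eq_mul]
            have := avg_le (fun Y : C → V → Bool => ∏ c, μ false (Y c))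
              (fun Y => prod_nonneg fun c _ => hμ0 _ _) (sum_prod_weight _ fun c => hμ1 _)
              (fun Y => ∑ α, hit e Prod.fst r labA α (xzero ω r Y) (T j) d)
              fun Y => sum_hit_le _ _ _ _ _ _ _
            linarith
    simp only [sum_const, card_univ, nsmul_eq_mul]
    calc _ ≤ (Fintype.card M : ℝ)⁻¹ * (Fintype.card Ad : ℝ)⁻¹ *
          (Fintype.card M * (d + Fintype.card Ad * (Fintype.card C * ε))) :=
          mul_le_mul_of_nonneg_left (mul_le_mul_of_nonneg_left this hM.le) (by positivity)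
      _ = _ := by field_simp
  have hEN : ∀ j, ∑ r, ∑ ω, W ω * N j r ω ≤ q / (d + 1) := by
    intro j
    rw [sum_comm]
    simp only [← mul_sum]
    refine avg_le _ hW0 hW1 _ fun ω => ?_
    simp only [hN, ← sum_div]
    refine div_le_div_of_nonneg_right ?_ hd.le
    exact_mod_cast (sum_cnt_le e Prod.fst (xin ω) (T j)).trans (hT j)
  set B : ℝ := d / Fintype.card M + (d / Fintype.card Ad + Fintype.card C * ε) with hB
  have hrow : ∀ r, 1 / 3 ≤ η / 3 + (B + ∑ j, p j * ∑ ω, W ω * N j r ω) := by
    intro r
    calc (1 : ℝ) / 3 = ∑ ω, W ω * (1 / 3) := by rw [← sum_mul, hW1, one_mul]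
      _ ≤ ∑ ω, W ω * (bad r ω / 3 + ∑ j, p j * (H₁ j r ω + H₂ j r ω + N j r ω)) :=
          sum_le_sum fun ω _ => mul_le_mul_of_nonneg_left (hpt r ω) (hW0 ω)
      _ = (∑ ω, W ω * bad r ω) / 3 + (∑ j, p j * (∑ ω, W ω * H₁ j r ω + ∑ ω, W ω * H₂ j r ω) +
            ∑ j, p j * ∑ ω, W ω * N j r ω) := by
          simp only [mul_add, sum_add_distrib, mul_sum, sum_div, mul_div_assoc, add_assoc]
          congr 1
          congr 1
          · rw [sum_comm]
            exact sum_congr rfl fun _ _ => sum_congr rfl fun _ _ => by ring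
          congr 1
          · rw [sum_comm]
            exact sum_congr rfl fun _ _ => sum_congr rfl fun _ _ => by ring
          · rw [sum_comm]
            exact sum_congr rfl fun _ _ => sum_congr rfl fun _ _ => by ring
      _ ≤ _ := by
          have h₁ := hEbad r
          have h₂ := avg_le p hp0 hp1 (fun j => ∑ ω, W ω * H₁ j r ω + ∑ ω, W ω * H₂ j r ω) (B := B)
            fun j => add_le_add (hE₁ j r) (hE₂ j r)
          linarith
  have hsum := sum_le_sum fun r (_ : r ∈ (univ : Finset R)) => hrow r
  simp only [sum_add_distrib, sum_const, card_univ, nsmul_eq_mul] at hsum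
  have hlast : ∑ r, ∑ j, p j * ∑ ω, W ω * N j r ω ≤ q / (d + 1) := by
    rw [sum_comm]
    simp only [← mul_sum]
    exact avg_le p hp0 hp1 _ hEN
  rw [mul_comm (Fintype.card R : ℝ), ← div_div, le_div_iff₀ hR]
  have := mul_nonneg hR.le hη
  have e₁ : (1 / 3 - 2 / 3 * η - d / Fintype.card M - d / Fintype.card Ad - Fintype.card C * ε) =
      1 / 3 - 2 / 3 * η - B := by rw [hB]; ring
  rw [e₁]
  nlinarith

end Crest.Agent.R350
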