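import Crest.Agent.R350.Defs

/-! Row 350, part E (auxiliary): resampling one coordinate of a product weight, and bookkeeping
of the reads of a decision tree. -/

set_option autoImplicit false
open Finset Function Crest.MathPhysics.Query

namespace Crest.Agent.R350

section Resample
variable {K Ω : Type} [Fintype K] [DecidableEq K] [Fintype Ω]

lemma sum_prod_weight (w : K → Ω → ℝ) (hw : ∀ i, ∑ u, w i u = 1) :
    ∑ ω : K → Ω, ∏ i, w i (ω i) = 1 := by
  have := Finset.prod_univ_sum (fun _ : K => (univ : Finset Ω)) w
  rw [Fintype.piFinset_univ] at this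
  rw [← this]
  simp [hw]

lemma resample (w w' : K → Ω → ℝ) (k : K) (h : ∀ i, i ≠ k → w i = w' i)
    (hw : ∑ u, w' k u = 1) (f : (K → Ω) → ℝ) :
    ∑ ω : K → Ω, (∏ i, w i (ω i)) * f ω =
      ∑ ω : K → Ω, (∏ i, w' i (ω i)) * ∑ u, w k u * f (update ω k u) := by
  have hinv : Function.Involutive
      (fun z : (K → Ω) × Ω => (update z.1 k z.2, z.1 k)) := by
    rintro ⟨ω, u⟩
    simp
  calc ∑ ω : K → Ω, (∏ i, w i (ω i)) * f ω
      = ∑ z : (K → Ω) × Ω, w' k z.2 * ((∏ i, w i (z.1 i)) * f z.1) := by
        rw [Fintype.sum_prod_type]
        refine sum_congr rfl fun ω _ => ?_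
        simp only
        rw [← sum_mul, hw, one_mul]
    _ = ∑ z : (K → Ω) × Ω, w' k (z.1 k) *
          ((∏ i, w i (update z.1 k z.2 i)) * f (update z.1 k z.2)) :=
        (Equiv.sum_comp hinv.toPerm _).symm
    _ = _ := by
        rw [Fintype.sum_prod_type]
        refine sum_congr rfl fun ω _ => ?_
        rw [mul_sum]
        refine sum_congr rfl fun u _ => ?_
        simp only
        rw [← mul_prod_erase univ _ (mem_univ k), ← mul_prod_erase univ (fun i => w' i (ω i))
          (mem_univ k), update_self]
        have : ∏ i ∈ univ.erase k, w i (update ω k u i) = ∏ i ∈ univ.erase k, w' i (ω i) := by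
          refine prod_congr rfl fun i hi => ?_
          rw [update_of_ne (ne_of_mem_erase hi), h i (ne_of_mem_erase hi)]
        rw [this]
        ring

lemma avg_le {X : Type} [Fintype X] (W : X → ℝ) (h0 : ∀ x, 0 ≤ W x) (h1 : ∑ x, W x = 1)
    (f : X → ℝ) {B : ℝ} (hf : ∀ x, f x ≤ B) : ∑ x, W x * f x ≤ B := by
  calc ∑ x, W x * f x ≤ ∑ x, W x * B :=
        sum_le_sum fun x _ => mul_le_mul_of_nonneg_left (hf x) (h0 x)
    _ = B := by rw [← sum_mul, h1, one_mul]

lemma resample_le (w : K → Ω → ℝ) (h0 : ∀ i u, 0 ≤ w i u) (hw : ∀ i, ∑ u, w i u = 1) (k : K)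
    (f : (K → Ω) → ℝ) {B : ℝ} (hf : ∀ ω, ∑ u, w k u * f (update ω k u) ≤ B) :
    ∑ ω : K → Ω, (∏ i, w i (ω i)) * f ω ≤ B := by
  rw [resample w w k (fun _ _ => rfl) (hw k)]
  exact avg_le _ (fun ω => prod_nonneg fun i _ => h0 i _) (sum_prod_weight w hw) _ hf

end Resample

section Tree
variable {I R A : Type} [DecidableEq R] [DecidableEq A] {n : ℕ}

/-- the number of reads in row `r` of the run on `z` -/
def cnt (e : Fin n → I) (row : I → R) (r : R) (z : I → Bool) : DTree n → ℕ
  | .answer _ => 0
  | .read i t₀ t₁ => (if row (e i) = r then 1 else 0) +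
      if z (e i) then cnt e row r z t₁ else cnt e row r z t₀

/-- the indicator that among the first `d` reads in row `r` one has label `a` -/
def hit (e : Fin n → I) (row : I → R) (r : R) (lab : I → Option A) (a : A) (z : I → Bool) :
    DTree n → ℕ → ℝ
  | .answer _, _ => 0
  | .read i t₀ t₁, d =>
      if row (e i) = r then
        (if d = 0 then 0 else if lab (e i) = some a then 1 else
          if z (e i) then hit e row r lab a z t₁ (d - 1) else hit e row r lab a z t₀ (d - 1))
      else if z (e i) then hit e row r lab a z t₁ d else hit e row r lab a z t₀ d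

lemma hit_mem (e : Fin n → I) (row : I → R) (r : R) (lab : I → Option A) (a : A) (z : I → Bool)
    (T : DTree n) (d : ℕ) : 0 ≤ hit e row r lab a z T d ∧ hit e row r lab a z T d ≤ 1 := by
  induction T generalizing d with
  | answer b => simp [hit]
  | read i t₀ t₁ ih₀ ih₁ =>
    simp only [hit]
    split_ifs
    · simp
    · simp
    · exact ih₁ _
    · exact ih₀ _
    · exact ih₁ _
    · exact ih₀ _

lemma sum_cnt_le [Fintype R] (e : Fin n → I) (row : I → R) (z : I → Bool) (T : DTree n) :
    ∑ r, cnt e row r z T ≤ T.depth := by
  induction T with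
  | answer b => simp [cnt]
  | read i t₀ t₁ ih₀ ih₁ =>
    simp only [cnt, DTree.depth, sum_add_distrib, sum_ite_eq, mem_univ, if_true]
    split_ifs
    · have := le_max_right t₀.depth t₁.depth
      omega
    · have := le_max_left t₀.depth t₁.depth
      omega

lemma sum_hit_le [Fintype A] (e : Fin n → I) (row : I → R) (r : R) (lab : I → Option A)
    (z : I → Bool) (T : DTree n) (d : ℕ) : ∑ a, hit e row r lab a z T d ≤ d := by
  induction T generalizing d with
  | answer b => simp [hit]
  | read i t₀ t₁ ih₀ ih₁ =>
    simp only [hit]
    by_cases hr : row (e i) = r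
    · simp only [hr, if_true]
      rcases d with _ | d
      · simp
      · simp only [Nat.add_one_ne_zero, if_false, Nat.add_sub_cancel]
        have key : ∀ g : A → ℝ, (∀ a, 0 ≤ g a) → ∑ a, g a ≤ d →
            ∑ a, (if lab (e i) = some a then 1 else g a) ≤ ((d + 1 : ℕ) : ℝ) := by
          intro g hg hs
          calc ∑ a, (if lab (e i) = some a then 1 else g a)
              ≤ ∑ a, ((if lab (e i) = some a then 1 else 0) + g a) := by
                refine sum_le_sum fun a _ => ?_
                split_ifs
                · linarith [hg a]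
                · simp
            _ ≤ ((d + 1 : ℕ) : ℝ) := by
                rw [sum_add_distrib]
                have : ∑ a, (if lab (e i) = some a then (1 : ℝ) else 0) ≤ 1 := by
                  rcases lab (e i) with _ | a₀
                  · simp
                  · simp
                push_cast
                linarith
        by_cases hz : z (e i) = true
        · simp only [hz, if_true]
          exact key _ (fun a => (hit_mem e row r lab a z t₁ d).1) (ih₁ d)
        · simp only [hz]
          exact key _ (fun a => (hit_mem e row r lab a z t₀ d).1) (ih₀ d)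
    · simp only [hr, if_false]
      split_ifs
      · exact ih₁ d
      · exact ih₀ d

lemma hit_DT {J : Type} [DecidableEq J] (e : Fin n → I) (row : I → R) (r : R)
    (lab : I → Option A) (a : A) (τ : I → Bool ⊕ J) (hτ : ∀ i, row i ≠ r → ∃ b, τ i = .inl b)
    (T : DTree n) (d : ℕ) :
    DT d fun y : J → Bool => hit e row r lab a (fun i => (τ i).elim id y) T d := by
  induction T generalizing d with
  | answer b => exact DT.const d (0 : ℝ)
  | read i t₀ t₁ ih₀ ih₁ =>
    simp only [hit]
    by_cases hr : row (e i) = r
    · simp only [hr, if_true]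
      rcases d with _ | d
      · simpa using DT.const 0 (0 : ℝ)
      · simp only [Nat.add_one_ne_zero, if_false, Nat.add_sub_cancel]
        by_cases hl : lab (e i) = some a
        · simpa [hl] using DT.const (d + 1) (1 : ℝ)
        · simp only [hl, if_false]
          rcases hi : τ (e i) with b | j
          · cases b
            · convert (ih₀ d).succ using 2 with y
              simp
            · convert (ih₁ d).succ using 2 with y
              simp
          · convert DT.read j (ih₀ d) (ih₁ d) using 2 with y
            simp
    · simp only [hr, if_false]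
      obtain ⟨b, hb⟩ := hτ _ hr
      cases b
      · convert ih₀ d using 2 with y
        simp [hb]
      · convert ih₁ d using 2 with y
        simp [hb]

lemma eval_ne {B : Type} [DecidableEq B] (e : Fin n → I) (row : I → R) (r : R)
    (lab : I → Option A) (a : A) (lab' : I → Option B) (b : B) (x x₀ x' : I → Bool)
    (h : ∀ i, ¬ (row i = r ∧ (lab i = some a ∨ lab' i = some b)) → x i = x₀ i ∧ x' i = x₀ i)
    (T : DTree n) (d : ℕ) (hne : T.eval (fun i => x (e i)) ≠ T.eval (fun i => x' (e i))) :
    1 ≤ hit e row r lab a x₀ T d + hit e row r lab' b x₀ T d ∨ d < cnt e row r x T := by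
  induction T generalizing d with
  | answer b => exact absurd rfl hne
  | read i t₀ t₁ ih₀ ih₁ =>
    have hm := hit_mem e row r lab a x₀ (.read i t₀ t₁) d
    have hm' := hit_mem e row r lab' b x₀ (.read i t₀ t₁) d
    by_cases hr : row (e i) = r
    · rcases d with _ | d
      · right
        simp [cnt, hr]
      · by_cases hl : lab (e i) = some a
        · left
          have : hit e row r lab a x₀ (.read i t₀ t₁) (d + 1) = 1 := by simp [hit, hr, hl]
          linarith [hm'.1]
        by_cases hl' : lab' (e i) = some b
        · left
          have : hit e row r lab' b x₀ (.read i t₀ t₁) (d + 1) = 1 := by simp [hit, hr, hl']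
          linarith [hm.1]
        obtain ⟨h₁, h₂⟩ := h (e i) (by simp [hl, hl'])
        simp only [DTree.eval, h₁, h₂] at hne
        simp only [hit, cnt, hr, hl, hl', h₁, if_true, if_false, Nat.add_one_ne_zero,
          Nat.add_sub_cancel]
        by_cases hz : x₀ (e i) = true
        · simp only [hz, if_true] at hne ⊢
          exact (ih₁ d hne).imp id fun h => by omega
        · simp only [hz] at hne ⊢
          exact (ih₀ d hne).imp id fun h => by simpa using by omega
    · obtain ⟨h₁, h₂⟩ := h (e i) (by simp [hr])
      simp only [DTree.eval, h₁, h₂] at hne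
      simp only [hit, cnt, hr, h₁, if_false, zero_add]
      by_cases hz : x₀ (e i) = true
      · simp only [hz, if_true] at hne ⊢
        exact ih₁ d hne
      · simp only [hz] at hne ⊢
        exact ih₀ d hne

end Tree

end Crest.Agent.R350
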