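import Crest.Agent.R350.Cube

/-! Row 350, part D1: the Forrelation value of the latent model. -/

set_option autoImplicit false
open Finset Function MeasureTheory

namespace Crest.Agent.R350

variable {A : Type} [Fintype A] [DecidableEq A] {κ : ℕ}

omit [DecidableEq A] in
lemma fw_congr (χ : A → A → ℝ) {z z' : ℕ → A → ℝ} {i : ℕ} (h : ∀ l < i, z l = z' l) :
    fw χ z i = fw χ z' i := by
  induction i with
  | zero => rfl
  | succ i ih =>
    funext b
    simp only [fw, ih fun l hl => h l (by omega), h i (by omega)]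

lemma sum_sg_indep {V : Type} [Fintype V] [DecidableEq V] (v : V) (H : (V → Bool) → ℝ)
    (hH : ∀ y c, H (update y v c) = H y) : ∑ y : V → Bool, sg (y v) * H y = 0 := by
  have hinv : Involutive fun y : V → Bool => update y v (!y v) := fun y => by simp
  have := Equiv.sum_comp (hinv.toPerm _) fun y => sg (y v) * H y
  simp only [Involutive.coe_toPerm, update_self, hH] at this
  have h2 : ∀ y : V → Bool, sg (!y v) * H y = -(sg (y v) * H y) := fun y => by
    cases y v <;> simp
  simp only [h2, Finset.sum_neg_distrib] at this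
  linarith

lemma mean_sg_mul {V : Type} [Fintype V] [DecidableEq V] (Z : V → ℝ) (v : V) (g : (V → Bool) → ℝ)
    (hg : ∀ y c, g (update y v c) = g y) :
    ∑ y : V → Bool, (∏ v, (1 + sg (y v) * Z v) / 2) * (sg (y v) * g y) =
      Z v * ∑ y : V → Bool, (∏ v, (1 + sg (y v) * Z v) / 2) * g y := by
  have h0 := sum_sg_indep v (fun y => (∏ v' ∈ univ.erase v, (1 + sg (y v') * Z v') / 2) * g y)
    fun y c => by
      rw [hg]
      congr 1
      exact prod_congr rfl fun v' hv' => by rw [update_of_ne (ne_of_mem_erase hv')]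
  have h1 := congrArg (fun r => (1 - Z v ^ 2) / 2 * r) h0
  simp only [mul_zero] at h1
  rw [← sub_eq_zero, Finset.mul_sum, ← Finset.sum_sub_distrib]
  refine Eq.trans ?_ h1
  rw [Finset.mul_sum]
  refine sum_congr rfl fun y _ => ?_
  rw [← mul_prod_erase univ _ (mem_univ v)]
  linear_combination (Z v / 2 * (∏ v' ∈ univ.erase v, (1 + sg (y v') * Z v') / 2) * g y) *
    sg_mul_self (y v)

/-- Multilinearity: under independent signs with means `Z`, the mean of `fw` is `fw` of the means.
Induction on `i ≤ K` (for all `b`); `fw χ (zOf y) i a` does not depend on the bits of layer `i`, and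
`∑ y, w y * (sg (y v) * g y) = Z v * ∑ y, w y * g y` when `g` does not depend on `y v`. -/
lemma mean_fw {K : ℕ} (χ : A → A → ℝ) (Z : Fin K × A → ℝ) (i : ℕ) (b : A) :
    ∑ y : Fin K × A → Bool, (∏ v, (1 + sg (y v) * Z v) / 2) * fw χ (zOf y) i b =
      fw χ (fun l a => if h : l < K then Z (⟨l, h⟩, a) else 0) i b := by
  induction i generalizing b with
  | zero =>
    simp only [fw, mul_one]
    rw [← Fintype.piFinset_univ, ← Finset.prod_univ_sum (fun _ => univ)
      fun v (c : Bool) => (1 + sg c * Z v) / 2]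
    exact prod_eq_one fun v _ => by simp; ring
  | succ i ih =>
    simp only [fw, Finset.mul_sum]
    rw [Finset.sum_comm]
    refine sum_congr rfl fun a _ => ?_
    simp only [mul_left_comm _ (χ a b), ← Finset.mul_sum]
    congr 1
    by_cases h : i < K
    · simp only [zOf, dif_pos h]
      rw [← ih a]
      refine mean_sg_mul Z (⟨i, h⟩, a) (fun y => fw χ (zOf y) i a) fun y c => ?_
      refine congrFun (fw_congr χ fun l hl => ?_) a
      funext a'
      simp only [zOf]
      split_ifs with hl'
      · rw [update_of_ne]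
        simp only [ne_eq, Prod.mk.injEq, Fin.mk.injEq, not_and]
        omega
      · rfl
    · simp [zOf, dif_neg h]

lemma int_odd {f : ℝ → ℝ} (hf : ∀ t, f (-t) = -f t) : ∫ t in (-1 : ℝ)..1, f t = 0 := by
  have := intervalIntegral.integral_comp_neg (a := -1) (b := 1) f
  simp only [hf, intervalIntegral.integral_neg, neg_neg] at this
  linarith

/-- mean of `cos (u t)` -/
noncomputable def cI (u : ℝ) : ℝ := (∫ t in (-1 : ℝ)..1, Real.cos (u * t)) / 2

/-- mean of `t sin (u t)` -/
noncomputable def bI (u : ℝ) : ℝ := (∫ t in (-1 : ℝ)..1, t * Real.sin (u * t)) / 2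

lemma le_cI (u : ℝ) : 1 - u ^ 2 / 6 ≤ cI u := by
  have h1 : ∫ t in (-1 : ℝ)..1, (1 - u ^ 2 / 2 * t ^ 2) ≤ ∫ t in (-1 : ℝ)..1, Real.cos (u * t) :=
    intervalIntegral.integral_mono_on (by norm_num) (Continuous.intervalIntegrable (by fun_prop) _ _)
      (Continuous.intervalIntegrable (by fun_prop) _ _) fun t _ => by
        have := Real.one_sub_sq_div_two_le_cos (x := u * t)
        linarith
  rw [intervalIntegral.integral_sub (Continuous.intervalIntegrable (by fun_prop) _ _)
    (Continuous.intervalIntegrable (by fun_prop) _ _), intervalIntegral.integral_const_mul,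
    integral_pow, intervalIntegral.integral_const] at h1
  norm_num at h1
  rw [cI]; linarith

lemma mul_sin_ge (x : ℝ) : x ^ 2 - x ^ 4 / 6 ≤ x * Real.sin x := by
  rcases le_total 0 x with h | h
  · nlinarith [mul_le_mul_of_nonneg_left (Real.sin_ge_sub_cube h) h]
  · have h' : 0 ≤ -x := by linarith
    have := mul_le_mul_of_nonneg_left (Real.sin_ge_sub_cube h') h'
    rw [Real.sin_neg] at this
    nlinarith

lemma le_mul_bI (u : ℝ) : u ^ 2 / 3 - u ^ 4 / 30 ≤ u * bI u := by
  have h1 : ∫ t in (-1 : ℝ)..1, (u ^ 2 * t ^ 2 - u ^ 4 / 6 * t ^ 4) ≤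
      ∫ t in (-1 : ℝ)..1, u * (t * Real.sin (u * t)) :=
    intervalIntegral.integral_mono_on (by norm_num) (Continuous.intervalIntegrable (by fun_prop) _ _)
      (Continuous.intervalIntegrable (by fun_prop) _ _) fun t _ => by
        have := mul_sin_ge (u * t)
        linarith
  rw [intervalIntegral.integral_sub (Continuous.intervalIntegrable (by fun_prop) _ _)
    (Continuous.intervalIntegrable (by fun_prop) _ _), intervalIntegral.integral_const_mul,
    intervalIntegral.integral_const_mul, intervalIntegral.integral_const_mul,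
    integral_pow, integral_pow] at h1
  norm_num at h1
  rw [bI]; linarith

lemma int_cos_add (g u S : ℝ) :
    (∫ t in (-1 : ℝ)..1, g * Real.cos (u * t + S)) / 2 = cI u * (g * Real.cos S) := by
  have : ∀ t, g * Real.cos (u * t + S) =
      g * Real.cos S * Real.cos (u * t) - g * Real.sin S * Real.sin (u * t) := fun t => by
    rw [Real.cos_add]; ring
  simp only [this]
  rw [intervalIntegral.integral_sub (Continuous.intervalIntegrable (by fun_prop) _ _)
    (Continuous.intervalIntegrable (by fun_prop) _ _), intervalIntegral.integral_const_mul,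
    intervalIntegral.integral_const_mul, int_odd (f := fun t => Real.sin (u * t)) (by simp), cI]
  ring

lemma int_sin_add (g u S : ℝ) :
    (∫ t in (-1 : ℝ)..1, g * (t * Real.sin (u * t + S))) / 2 = bI u * (g * Real.cos S) := by
  have : ∀ t, g * (t * Real.sin (u * t + S)) =
      g * Real.cos S * (t * Real.sin (u * t)) + g * Real.sin S * (t * Real.cos (u * t)) :=
    fun t => by rw [Real.sin_add]; ring
  simp only [this]
  rw [intervalIntegral.integral_add (Continuous.intervalIntegrable (by fun_prop) _ _)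
    (Continuous.intervalIntegrable (by fun_prop) _ _), intervalIntegral.integral_const_mul,
    intervalIntegral.integral_const_mul, int_odd (f := fun t => t * Real.cos (u * t)) (by simp), bI]
  ring

section abstract
variable {ι : Type} [Fintype ι] [DecidableEq ι] {G : (ι → ℝ) → ℝ} {e : A → ι}

omit [Fintype A] [Fintype ι] [DecidableEq A] in
lemma sum_update_notMem (he : Injective e) (u : A → ℝ) {s : Finset A} {a : A} (ha : a ∉ s)
    (θ : ι → ℝ) (t : ℝ) : ∑ a' ∈ s, u a' * update θ (e a) t (e a') = ∑ a' ∈ s, u a' * θ (e a') :=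
  sum_congr rfl fun a' ha' => by rw [update_of_ne (he.ne (ne_of_mem_of_not_mem ha' ha))]

omit [Fintype A] in
lemma cube_cos (hG : Continuous G) (he : Injective e) (hGe : ∀ θ a t, G (update θ (e a) t) = G θ)
    (u : A → ℝ) (s : Finset A) :
    ∫ θ, G θ * Real.cos (∑ a ∈ s, u a * θ (e a)) ∂cube ι = (∏ a ∈ s, cI (u a)) * ∫ θ, G θ ∂cube ι := by
  induction s using Finset.induction_on with
  | empty => simp
  | insert a s ha ih =>
    rw [cube_update (by fun_prop) (e a), prod_insert ha, mul_assoc, ← ih, ← integral_const_mul]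
    congr 1
    funext θ
    simp only [sum_insert ha, hGe, update_self, sum_update_notMem he u ha, int_cos_add]

lemma cube_sin (hG : Continuous G) (he : Injective e) (hGe : ∀ θ a t, G (update θ (e a) t) = G θ)
    (u : A → ℝ) (a : A) :
    ∫ θ, G θ * (θ (e a) * Real.sin (∑ a', u a' * θ (e a'))) ∂cube ι =
      bI (u a) * (∏ a' ∈ univ.erase a, cI (u a')) * ∫ θ, G θ ∂cube ι := by
  rw [cube_update (by fun_prop) (e a), mul_assoc, ← cube_cos hG he hGe, ← integral_const_mul]
  congr 1
  funext θ
  simp only [← add_sum_erase univ _ (mem_univ a), hGe, update_self,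
    sum_update_notMem he u (notMem_erase a univ), int_sin_add]

end abstract

/-- the product of the Forrelation vector of the means with the left factor -/
noncomputable def Gf (χ : A → A → ℝ) (θ : Option (Fin κ × A) → ℝ) (i : ℕ) (a : A) : ℝ :=
  fw χ (fun l a => Ll χ θ l a * Rl θ l a / 2) i a * Ll χ θ i a

omit [DecidableEq A] in
lemma Gf_congr (χ : A → A → ℝ) {θ θ' : Option (Fin κ × A) → ℝ} {i : ℕ} (h0 : θ none = θ' none)
    (h : ∀ l < i, Rl θ l = Rl θ' l) (a : A) : Gf χ θ i a = Gf χ θ' i a := by
  have hL : ∀ l ≤ i, Ll χ θ l = Ll χ θ' l := fun l hl => by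
    cases l with
    | zero => simp only [Ll, h0]
    | succ l => simp only [Ll, h l (by omega)]
  rw [Gf, Gf, hL i le_rfl, fw_congr χ (z' := fun l a => Ll χ θ' l a * Rl θ' l a / 2)
    fun l hl => by rw [hL l hl.le, h l hl]]

omit [DecidableEq A] in
lemma continuous_Gf (χ : A → A → ℝ) (i : ℕ) (a : A) :
    Continuous fun θ : Option (Fin κ × A) → ℝ => Gf χ θ i a := by
  refine Continuous.mul ?_ (continuous_Ll χ i a)
  induction i generalizing a with
  | zero => exact continuous_const
  | succ i ih =>
    exact continuous_finsetSum _ fun a' _ => continuous_const.mul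
      ((((continuous_Ll χ i a').mul (continuous_Rl i a')).div_const 2).mul (ih a'))

lemma Gf_bound (χ : A → A → ℝ) (a₀ : A) (hχ : ∀ a b, χ a b ^ 2 = 1) (σ : Bool) (i : ℕ)
    (hi : i ≤ κ) (b : A) : (√(Fintype.card A : ℝ) / 8) ^ i ≤
      sg σ * ∫ θ, Gf χ (update θ none (sg σ)) i b ∂cube (Option (Fin κ × A)) := by
  have hN : (1 : ℝ) ≤ Fintype.card A := by
    exact_mod_cast Fintype.card_pos_iff.2 ⟨a₀⟩
  set N : ℝ := (Fintype.card A : ℝ) with hNdef
  have hr : 0 < √N := Real.sqrt_pos.2 (by linarith)
  have hr2 : √N ^ 2 = N := Real.sq_sqrt (by linarith)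
  induction i generalizing b with
  | zero => simp [Gf, fw, Ll, sg_mul_self]
  | succ i ih =>
    have hi' : i < κ := hi
    set e : A → Option (Fin κ × A) := fun a => some (⟨i, hi'⟩, a) with he
    have hinj : Injective e := fun a a' h => by simpa [he] using h
    set u : A → ℝ := fun a => χ a b / √N with hu
    have hu2 : ∀ a, u a ^ 2 = 1 / N := fun a => by rw [hu, div_pow, hχ, hr2]
    have hc : ∀ a, Continuous fun θ : Option (Fin κ × A) → ℝ => Gf χ (update θ none (sg σ)) i a :=
      fun a => (continuous_Gf χ i a).comp (continuous_id.update none continuous_const)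
    have h1 : ∀ θ : Option (Fin κ × A) → ℝ, Gf χ (update θ none (sg σ)) (i + 1) b =
        ∑ a, χ a b / 2 * (Gf χ (update θ none (sg σ)) i a *
          (θ (e a) * Real.sin (∑ a', u a' * θ (e a')))) := fun θ => by
      have hR : ∀ a, Rl (update θ none (sg σ)) i a = θ (e a) := fun a => by
        simp [Rl, hi', he]
      simp only [Gf, fw, Ll, hR, Finset.sum_mul]
      exact sum_congr rfl fun a _ => by ring
    have h2 : ∀ a, ∫ θ, Gf χ (update θ none (sg σ)) i a *
        (θ (e a) * Real.sin (∑ a', u a' * θ (e a'))) ∂cube (Option (Fin κ × A)) =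
        bI (u a) * (∏ a' ∈ univ.erase a, cI (u a')) *
          ∫ θ, Gf χ (update θ none (sg σ)) i a ∂cube (Option (Fin κ × A)) := fun a =>
      cube_sin (hc a) hinj (fun θ a' t => Gf_congr χ (by simp) (fun l hl => by
        funext a''
        have : (⟨l, hl.trans hi'⟩ : Fin κ) ≠ ⟨i, hi'⟩ := by simp [hl.ne]
        simp [Rl, hl.trans hi', he, this]) a) u a
    have h3 : ∀ a, 1 / (4 * √N) ≤ χ a b * (bI (u a) * ∏ a' ∈ univ.erase a, cI (u a')) := fun a => by
      have hN6 : 1 / N ≤ 1 := by rw [div_le_one (by linarith)]; exact hN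
      have hN0 : 0 < 1 / N := by positivity
      have hp : 5 / 6 ≤ ∏ a' ∈ univ.erase a, cI (u a') := by
        have h4 : ∏ _a' ∈ univ.erase a, (1 + -(1 / N / 6)) ≤ ∏ a' ∈ univ.erase a, cI (u a') :=
          prod_le_prod (fun _ _ => by linarith) fun a' _ => by
            have := le_cI (u a')
            rw [hu2] at this; linarith
        rw [prod_const] at h4
        refine le_trans ?_ ((one_add_mul_le_pow (by linarith) _).trans h4)
        have h5 : ((univ.erase a).card : ℝ) ≤ N := by
          rw [hNdef]; exact_mod_cast card_le_univ _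
        have h6 : ((univ.erase a).card : ℝ) * (1 / N) ≤ 1 := by
          rw [mul_one_div, div_le_one (by linarith)]; exact h5
        linarith
      have hb : 3 / 10 / √N ≤ χ a b * bI (u a) := by
        have h4 := le_mul_bI (u a)
        rw [show u a ^ 4 = (u a ^ 2) ^ 2 by ring, hu2] at h4
        have h5 : χ a b * bI (u a) = √N * (u a * bI (u a)) := by
          simp only [hu]; field_simp
        have h6 : 3 / 10 / √N = √N * (3 / 10 * (1 / N)) := by
          conv_rhs => rw [← hr2]
          rw [Real.sqrt_sq hr.le]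
          field_simp
        rw [h5, h6]
        exact mul_le_mul_of_nonneg_left (by nlinarith) hr.le
      rw [← mul_assoc]
      refine le_trans (le_of_eq ?_) (mul_le_mul hb hp (by norm_num) (le_trans (by positivity) hb))
      field_simp; norm_num
    simp only [h1]
    rw [integral_finsetSum _ fun a _ => cube_integrable (by have := hc a; fun_prop), Finset.mul_sum]
    simp only [integral_const_mul, h2]
    have h4 : (√N / 8) ^ (i + 1) = ∑ _a : A, 1 / (4 * √N) * (√N / 8) ^ i / 2 := by
      rw [sum_const, card_univ, nsmul_eq_mul, ← hNdef, pow_succ]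
      have : N = √N * √N := (Real.mul_self_sqrt (by linarith)).symm
      nth_rewrite 3 [this]
      field_simp
      ring
    rw [h4]
    refine sum_le_sum fun a _ => ?_
    have := mul_le_mul (h3 a) (ih hi'.le a) (by positivity) (le_trans (by positivity) (h3 a))
    linarith

/-- Let `N = card A`, `θ' = update θ none s`, `z θ = ` the layered means `Zl χ θ'`, and
`m i b = ∫ fw χ (z θ) i b * Ll χ θ' i b`. Claim: `(√N / 8)^i ≤ s * m i b` for `i ≤ κ`. Indeed
`fw (i+1) b * Ll (i+1) b = ∑ a, χ a b / 2 * (fw i a * Ll i a) * (θ (i,a) * sin (∑ a', U a' b * θ (i,a')))`,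
`U = χ/√N`, and `G = fw i a * Ll i a` does not depend on the variables of layer `i`. With
`cube_update` one variable at a time (induction on a finset `s` of positions of layer `i`):
`∫ G * cos (∑_{a' ∈ s} u a' * θ (i,a')) = (∏_{a' ∈ s} c (u a')) * ∫ G` where
`c u = (∫ t in -1..1, cos (u t)) / 2 ≥ 1 - u²/6` (and `∫ t in -1..1, sin (u t) = 0`), and
`∫ G * θ_a * sin (u_a θ_a + S) = b (u_a) * ∫ G cos S` with `b u = (∫ t in -1..1, t * sin (u t)) / 2`,
`u * b u ≥ u² (1/3 - u²/30)` (`x * sin x ≥ x² - x⁴/6`), `∫ t * cos (u t) = 0`. As `u² = 1/N`: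
`χ a b * b (u_a) * ∏ c ≥ (1/√N) * (3/10) * (5/6) = 1/(4√N)`. In the last layer `Rl = 1`, so
`fw (κ+1) a₀ = ∑ a, (fw κ a * Ll κ a) / 2`, whose mean times `s` is `≥ N/2 * (√N/8)^κ`. -/
theorem signal (χ : A → A → ℝ) (a₀ : A) (hχ : ∀ a b, χ a b ^ 2 = 1) (h₀ : ∀ a, χ a a₀ = 1)
    (σ : Bool) :
    1 / (2 * 8 ^ κ) ≤ sg σ * ∫ θ, (∑ y : Fin (κ + 1) × A → Bool,
      (∏ v, (1 + sg (y v) * Zl χ (update θ none (sg σ)) v) / 2) * Phi χ a₀ y)
        ∂cube (Option (Fin κ × A)) := by
  have hN : (1 : ℝ) ≤ Fintype.card A := by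
    exact_mod_cast Fintype.card_pos_iff.2 ⟨a₀⟩
  have hr : 0 < √(Fintype.card A : ℝ) := Real.sqrt_pos.2 (by linarith)
  have hr2 : √(Fintype.card A : ℝ) ^ 2 = Fintype.card A := Real.sq_sqrt (by linarith)
  have h1 : ∀ θ : Option (Fin κ × A) → ℝ, (∑ y : Fin (κ + 1) × A → Bool,
      (∏ v, (1 + sg (y v) * Zl χ θ v) / 2) * Phi χ a₀ y) =
      ∑ a, (2 * √(Fintype.card A : ℝ) ^ (κ + 2))⁻¹ * Gf χ θ κ a := fun θ => by
    simp only [Phi, ← mul_div_assoc, ← Finset.sum_div]
    rw [mean_fw, fw_congr χ (z' := fun l a => Ll χ θ l a * Rl θ l a / 2)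
      fun l hl => by funext a; simp [hl, Zl]]
    simp only [fw, h₀, Finset.sum_div, Gf]
    refine sum_congr rfl fun a _ => ?_
    rw [show Rl θ κ a = 1 by simp [Rl]]
    field_simp
  have hc : ∀ a, Continuous fun θ : Option (Fin κ × A) → ℝ => Gf χ (update θ none (sg σ)) κ a :=
    fun a => (continuous_Gf χ κ a).comp (continuous_id.update none continuous_const)
  simp only [h1]
  rw [integral_finsetSum _ fun a _ => cube_integrable (by have := hc a; fun_prop), Finset.mul_sum]
  simp only [integral_const_mul]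
  have h2 : (1 : ℝ) / (2 * 8 ^ κ) = ∑ _a : A,
      (2 * √(Fintype.card A : ℝ) ^ (κ + 2))⁻¹ * (√(Fintype.card A : ℝ) / 8) ^ κ := by
    rw [sum_const, card_univ, nsmul_eq_mul, pow_add, hr2, div_pow]
    field_simp
  rw [h2]
  refine sum_le_sum fun a _ => ?_
  rw [mul_left_comm]
  exact mul_le_mul_of_nonneg_left (Gf_bound χ a₀ hχ σ κ le_rfl a) (by positivity)

end Crest.Agent.R350
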