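import Crest.Agent.R350.Cube
import Crest.Agent.R350.Level
import Crest.Agent.R350.Signal

/-! Row 350, part D2: indistinguishability by repeated integration by parts. -/

set_option autoImplicit false
open Finset Function MeasureTheory

namespace Crest.Agent.R350

variable {A : Type} [Fintype A] [DecidableEq A] {κ : ℕ}

lemma hasDerivAt_Dv {V : Type} [Fintype V] [DecidableEq V] (B : Finset V) (f : (V → Bool) → ℝ)
    {Z : ℝ → V → ℝ} {Z' : V → ℝ} {t : ℝ} (hZ : ∀ v, HasDerivAt (fun t => Z t v) (Z' v) t) :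
    HasDerivAt (fun t => Dv B f (Z t))
      (∑ v, if v ∈ B then 0 else Z' v * Dv (insert v B) f (Z t)) t := by
  have h : ∀ (y : V → Bool) (v : V), HasDerivAt
      (fun t => if v ∈ B then sg (y v) / 2 else (1 + sg (y v) * Z t v) / 2)
      (if v ∈ B then 0 else sg (y v) * Z' v / 2) t := fun y v => by
    split_ifs
    · exact hasDerivAt_const _ _
    · exact (((hZ v).const_mul _).const_add 1).div_const 2
  refine (HasDerivAt.fun_sum fun y _ =>
    (HasDerivAt.fun_finsetProd fun v _ => h y v).const_mul (f y)).congr_deriv ?_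
  simp only [mul_sum]
  rw [sum_comm]
  refine sum_congr rfl fun v _ => ?_
  split_ifs with hv
  · simp
  · rw [Dv, mul_sum]
    refine sum_congr rfl fun y _ => ?_
    rw [← mul_prod_erase univ _ (mem_univ v), if_pos (mem_insert_self _ _),
      prod_congr rfl fun u hu => (by simp [ne_of_mem_erase hu] :
        (if u ∈ insert v B then sg (y u) / 2 else (1 + sg (y u) * Z t u) / 2) =
          if u ∈ B then sg (y u) / 2 else (1 + sg (y u) * Z t u) / 2), smul_eq_mul]
    ring

omit [Fintype A] in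
lemma Rl_update_none (θ : Option (Fin κ × A) → ℝ) (t : ℝ) (l : ℕ) (b : A) :
    Rl (update θ none t) l b = Rl θ l b := by
  simp [Rl]

omit [Fintype A] in
lemma Rl_update_some (θ : Option (Fin κ × A) → ℝ) (i : Fin κ) (a : A) (t : ℝ) (l : ℕ) (b : A) :
    Rl (update θ (some (i, a)) t) l b = if l = i ∧ b = a then t else Rl θ l b := by
  unfold Rl
  by_cases hl : l < κ
  · simp [hl, update_apply, Fin.ext_iff]
  · have : l ≠ i := fun h => hl (h ▸ i.2)
    simp [hl, this]

lemma hasDerivAt_Zl_none (χ : A → A → ℝ) (θ : Option (Fin κ × A) → ℝ) (t : ℝ)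
    (v : Fin (κ + 1) × A) : HasDerivAt (fun t => Zl χ (update θ none t) v)
      (if v.1 = 0 then Rl θ 0 v.2 / 2 else 0) t := by
  obtain ⟨⟨_ | l, hl⟩, b⟩ := v
  · simp only [Zl, Ll, Rl_update_none, update_self]
    exact (((hasDerivAt_id' t).mul_const _).div_const 2).congr_deriv (by simp)
  · simp only [Zl, Ll, Rl_update_none]
    exact (hasDerivAt_const _ _).congr_deriv (by simp [Fin.ext_iff])

/-- the argument of the sine -/
noncomputable def Sl (χ : A → A → ℝ) (θ : Option (Fin κ × A) → ℝ) (i : ℕ) (b : A) : ℝ :=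
  ∑ a, χ a b / √(Fintype.card A : ℝ) * Rl θ i a

lemma hasDerivAt_Zl_some (χ : A → A → ℝ) (θ : Option (Fin κ × A) → ℝ) (i : Fin κ) (a : A) (t : ℝ)
    (v : Fin (κ + 1) × A) : ∃ c : ℝ, HasDerivAt (fun t => Zl χ (update θ (some (i, a)) t) v)
      (if v = (i.castSucc, a) then c else if v.1 = i.succ then
        Real.cos (Sl χ (update θ (some (i, a)) t) i v.2) * (χ a v.2 / √(Fintype.card A : ℝ)) *
          Rl θ (i + 1) v.2 / 2 else 0) t := by
  have hR : ∀ l b, HasDerivAt (fun t => Rl (update θ (some (i, a)) t) l b)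
      (if l = i ∧ b = a then 1 else 0) t := fun l b => by
    simp only [Rl_update_some]
    split_ifs
    · exact hasDerivAt_id' t
    · exact hasDerivAt_const _ _
  have hL : ∀ l b, HasDerivAt (fun t => Ll χ (update θ (some (i, a)) t) l b)
      (if l = i + 1 then Real.cos (Sl χ (update θ (some (i, a)) t) i b) *
        (χ a b / √(Fintype.card A : ℝ)) else 0) t := fun l b => by
    rcases l with _ | l
    · simpa [Ll] using hasDerivAt_const t (θ none)
    · refine (HasDerivAt.fun_sum fun a' _ => (hR l a').const_mul _).sin.congr_deriv ?_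
      by_cases h : l = i
      · subst h; simp [Sl]
      · simp [h]
  obtain ⟨l, b⟩ := v
  by_cases hv : (l, b) = (i.castSucc, a)
  · exact ⟨_, (((hL l b).mul (hR l b)).div_const 2).congr_deriv (if_pos hv).symm⟩
  · refine ⟨0, (((hL l b).mul (hR l b)).div_const 2).congr_deriv ?_⟩
    have h1 : ¬ ((l : ℕ) = i ∧ b = a) := fun h => hv (by rw [h.2, Prod.mk.injEq]; simp [Fin.ext_iff, h.1])
    rw [if_neg hv, if_neg h1, Rl_update_some, if_neg h1]
    by_cases h : (l : ℕ) = i + 1
    · simp [h, Fin.ext_iff]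
    · simp [h, Fin.ext_iff]

omit [DecidableEq A] in
lemma continuous_Sl (χ : A → A → ℝ) (i : ℕ) (b : A) :
    Continuous fun θ : Option (Fin κ × A) → ℝ => Sl χ θ i b :=
  continuous_finsetSum _ fun a _ => continuous_const.mul (continuous_Rl _ a)

/-- one integration by parts -/
lemma stein_step (χ : A → A → ℝ) (f : (Fin (κ + 1) × A → Bool) → ℝ) (i : Fin κ) (a : A)
    {B : Finset (Fin (κ + 1) × A)} (hB : ∀ v ∈ B, (v.1 : ℕ) ≤ i) (ha : (i.castSucc, a) ∈ B)
    {W : (Option (Fin κ × A) → ℝ) → ℝ} (hW : Continuous W)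
    (hW' : ∀ θ t, W (update θ (some (i, a)) t) = W θ) :
    ∫ θ, W θ * Rl θ i a * Dv B f (Zl χ θ) ∂cube (Option (Fin κ × A)) =
      ∫ θ, ∑ b, (1 - Rl θ i a ^ 2) / 2 * W θ *
        (Real.cos (Sl χ θ i b) * (χ a b / √(Fintype.card A : ℝ)) / 2) * Rl θ (i + 1) b *
          Dv (insert (i.succ, b) B) f (Zl χ θ) ∂cube (Option (Fin κ × A)) := by
  have hc : ∀ B, Continuous fun θ : Option (Fin κ × A) → ℝ => Dv B f (Zl χ θ) := fun B =>
    continuous_Dv B f (continuous_Zl χ)
  have hRi : ∀ θ : Option (Fin κ × A) → ℝ, Rl θ i a = θ (some (i, a)) := fun θ => by simp [Rl]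
  have h := cube_stein (G := fun θ => W θ * Dv B f (Zl χ θ))
    (G' := fun θ => W θ * ∑ b, (Real.cos (Sl χ θ i b) * (χ a b / √(Fintype.card A : ℝ)) / 2) *
      Rl θ (i + 1) b * Dv (insert (i.succ, b) B) f (Zl χ θ)) (hW.mul (hc B))
    (hW.mul (continuous_finsetSum _ fun b _ => ((((Real.continuous_cos.comp
      (continuous_Sl χ i b)).mul continuous_const).div_const 2).mul (continuous_Rl _ _)).mul (hc _)))
    (some (i, a)) (fun θ t => by
      simp only [hW']
      choose c hc using hasDerivAt_Zl_some χ θ i a t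
      refine ((hasDerivAt_Dv B f hc).const_mul (W θ)).congr_deriv ?_
      congr 1
      rw [Fintype.sum_prod_type, Fintype.sum_eq_single i.succ]
      · refine sum_congr rfl fun b _ => ?_
        rw [if_neg fun h => by simpa using hB _ h, if_neg (by simp [Fin.ext_iff]), if_pos rfl,
          Rl_update_some, if_neg (by simp)]
        ring
      · intro l hl
        refine sum_eq_zero fun b _ => ?_
        split_ifs with h1 h2
        · rfl
        · exact absurd (h2 ▸ ha) h1
        · simp)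
  simp only [hRi]
  convert h using 2 with θ θ
  · ext θ; ring
  · ext θ
    simp only [mul_sum]
    exact sum_congr rfl fun _ _ => by ring

lemma path_aux (χ : A → A → ℝ) (hχ : ∀ a b, χ a b ^ 2 = 1)
    (f : (Fin (κ + 1) × A → Bool) → ℝ) (i : ℕ) (hi : i < κ + 1) :
    ∃ (P : Type) (_ : Fintype P) (B : P → Finset (Fin (κ + 1) × A)) (l : P → A)
      (W : P → (Option (Fin κ × A) → ℝ) → ℝ), Fintype.card P = Fintype.card A ^ (i + 1) ∧
      Injective B ∧ (∀ π, (B π).card = i + 1) ∧ (∀ π, ∀ v ∈ B π, (v.1 : ℕ) ≤ i) ∧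
      (∀ π, (⟨i, hi⟩, l π) ∈ B π) ∧ (∀ π, Continuous (W π)) ∧
      (∀ π θ (j : Fin κ) a t, i ≤ j → W π (update θ (some (j, a)) t) = W π θ) ∧
      (∀ π θ, (∀ i, |θ i| ≤ 1) → |W π θ| ≤ 1 / √(Fintype.card A : ℝ) ^ i) ∧
      ∫ θ, Dv ∅ f (Zl χ (update θ none 1)) ∂cube (Option (Fin κ × A)) -
        ∫ θ, Dv ∅ f (Zl χ (update θ none (-1))) ∂cube (Option (Fin κ × A)) =
        ∫ θ, ∑ π, W π θ * Rl θ i (l π) * Dv (B π) f (Zl χ θ) ∂cube (Option (Fin κ × A)) := by
  have hc : ∀ B, Continuous fun θ : Option (Fin κ × A) → ℝ => Dv B f (Zl χ θ) := fun B =>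
    continuous_Dv B f (continuous_Zl χ)
  induction i with
  | zero =>
    refine ⟨A, inferInstance, fun a => {(0, a)}, id, fun _ _ => 1, by simp,
      fun a b h => by simpa using h, by simp, by simp, by simp, fun _ => continuous_const,
      by simp, by simp, ?_⟩
    rw [← cube_ftc (G := fun θ => Dv ∅ f (Zl χ θ))
      (G' := fun θ => ∑ a, Rl θ 0 a / 2 * Dv {(0, a)} f (Zl χ θ)) (hc _)
      (continuous_finsetSum _ fun a _ => ((continuous_Rl _ _).div_const 2).mul (hc _)) none
      (fun θ t => by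
        refine (hasDerivAt_Dv ∅ f (hasDerivAt_Zl_none χ θ t)).congr_deriv ?_
        rw [Fintype.sum_prod_type, Fintype.sum_eq_single 0]
        · simp [Rl_update_none]
        · intro l hl; simp [hl]), ← integral_const_mul]
    congr 1
    ext θ
    rw [mul_sum]
    exact sum_congr rfl fun _ _ => by simp; ring
  | succ i ih =>
    obtain ⟨P, _, B, l, W, h1, h2, h3, h4, h5, h6, h7, h8, h9⟩ := ih (by omega)
    have hiκ : i < κ := by omega
    have hn : ∀ π b, ((⟨i + 1, hi⟩ : Fin (κ + 1)), b) ∉ B π := fun π b h => by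
      simpa using h4 π _ h
    refine ⟨P × A, inferInstance, fun z => insert (⟨i + 1, hi⟩, z.2) (B z.1), Prod.snd,
      fun z θ => (1 - Rl θ i (l z.1) ^ 2) / 2 * W z.1 θ *
        (Real.cos (Sl χ θ i z.2) * (χ (l z.1) z.2 / √(Fintype.card A : ℝ)) / 2),
      by simp [h1, pow_succ], ?_, fun z => by rw [card_insert_of_notMem (hn _ _), h3], ?_,
      fun z => mem_insert_self _ _, fun z => ?_, ?_, ?_, ?_⟩
    · rintro ⟨π, b⟩ ⟨π', b'⟩ h
      dsimp only at h
      have hb : b = b' := by
        have := h ▸ mem_insert_self ((⟨i + 1, hi⟩ : Fin (κ + 1)), b) (B π)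
        simpa [hn] using this
      subst hb
      rw [h2 ((insert_erase_invOn.2.injOn (hn π b) (hn π' b)) h)]
    · rintro z v hv
      rcases mem_insert.1 hv with rfl | hv
      · exact le_rfl
      · exact (h4 _ _ hv).trans (Nat.le_succ i)
    · have := continuous_Rl (κ := κ) i (l z.1)
      have := continuous_Sl (κ := κ) χ i z.2
      have := h6 z.1
      fun_prop
    · intro z θ j a t hj
      have : i ≠ j := by omega
      simp [Sl, Rl_update_some, this, h7 _ _ _ _ _ (Nat.le_of_succ_le hj)]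
    · intro z θ hθ
      have e1 : |χ (l z.1) z.2| = 1 := by
        rw [← sq_eq_sq₀ (abs_nonneg _) zero_le_one, sq_abs, hχ, one_pow]
      have e2 : |(1 - Rl θ i (l z.1) ^ 2) / 2| ≤ 1 := by
        have := (sq_le_one_iff_abs_le_one _).2 (abs_Rl_le hθ i (l z.1))
        rw [abs_le]; constructor <;> nlinarith [sq_nonneg (Rl θ i (l z.1))]
      have e3 : |Real.cos (Sl χ θ i z.2) * (χ (l z.1) z.2 / √(Fintype.card A : ℝ)) / 2| ≤
          1 / √(Fintype.card A : ℝ) := by
        rw [abs_div, abs_mul, abs_div, e1, abs_two, abs_of_nonneg (Real.sqrt_nonneg _)]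
        have := Real.abs_cos_le_one (Sl χ θ i z.2)
        have : 0 ≤ 1 / √(Fintype.card A : ℝ) := by positivity
        nlinarith [abs_nonneg (Real.cos (Sl χ θ i z.2))]
      rw [abs_mul, abs_mul]
      calc _ ≤ 1 * (1 / √(Fintype.card A : ℝ) ^ i) * (1 / √(Fintype.card A : ℝ)) := by
            gcongr; exact h8 _ _ hθ
        _ = _ := by rw [one_mul, pow_succ, one_div_mul_one_div]
    · have e : ∀ π, Continuous fun θ : Option (Fin κ × A) → ℝ => ∑ b, (1 - Rl θ i (l π) ^ 2) / 2 *
          W π θ * (Real.cos (Sl χ θ i b) * (χ (l π) b / √(Fintype.card A : ℝ)) / 2) *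
            Rl θ (i + 1) b * Dv (insert (⟨i + 1, hi⟩, b) (B π)) f (Zl χ θ) := fun π => by
        refine continuous_finsetSum _ fun b _ => ?_
        have := continuous_Rl (κ := κ) i (l π)
        have := continuous_Rl (κ := κ) (i + 1) b
        have := continuous_Sl (κ := κ) χ i b
        have := h6 π
        have := hc (insert (⟨i + 1, hi⟩, b) (B π))
        fun_prop
      simp only [Fintype.sum_prod_type]
      rw [h9, integral_finsetSum _ fun π _ =>
        cube_integrable (((h6 π).fun_mul (continuous_Rl _ _)).fun_mul (hc _)),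
        integral_finsetSum _ fun π _ => cube_integrable (e π)]
      exact sum_congr rfl fun π _ => stein_step χ f ⟨i, hiκ⟩ (l π) (h4 π) (h5 π) (h6 π)
        fun θ t => h7 π θ _ _ t le_rfl

theorem forr_dist (κ : ℕ) (χ : A → A → ℝ) (a₀ : A) (hχ : ∀ a b, χ a b ^ 2 = 1)
    (h₀ : ∀ a, χ a a₀ = 1) :
    ∃ μ : Bool → (Fin (κ + 1) × A → Bool) → ℝ, (∀ σ y, 0 ≤ μ σ y) ∧ (∀ σ, ∑ y, μ σ y = 1) ∧
      (∀ σ, 1 / (2 * 8 ^ κ) ≤ sg σ * ∑ y, μ σ y * Phi χ a₀ y) ∧
      ∀ (n D d : ℕ) (f : (Fin (κ + 1) × A → Bool) → ℝ), Even n → 2 ≤ n → 1 ≤ D → d ≤ D →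
        DT d f → (∀ y, |f y| ≤ 1) → Fintype.card A ^ (κ + 1) ≤ 2 ^ n →
        |∑ y, μ true y * f y - ∑ y, μ false y * f y| ≤
          6 * (6 * n * √D) ^ (κ + 1) / √(Fintype.card A : ℝ) ^ κ := by
  have hc : ∀ (σ : Bool) (y : Fin (κ + 1) × A → Bool), Continuous fun θ : Option (Fin κ × A) → ℝ =>
      ∏ v, (1 + sg (y v) * Zl χ (update θ none (sg σ)) v) / 2 := fun σ y =>
    continuous_finsetProd _ fun v _ => (continuous_const.add (continuous_const.mul
      ((continuous_Zl χ v).comp (continuous_id.update none continuous_const)))).div_const 2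
  have hsum : ∀ (σ : Bool) (f : (Fin (κ + 1) × A → Bool) → ℝ),
      ∑ y, (∫ θ, ∏ v, (1 + sg (y v) * Zl χ (update θ none (sg σ)) v) / 2
        ∂cube (Option (Fin κ × A))) * f y =
      ∫ θ, ∑ y, (∏ v, (1 + sg (y v) * Zl χ (update θ none (sg σ)) v) / 2) * f y
        ∂cube (Option (Fin κ × A)) := fun σ f => by
    rw [integral_finsetSum _ fun y _ => cube_integrable ((hc σ y).fun_mul continuous_const)]
    simp only [integral_mul_const]
  refine ⟨fun σ y => ∫ θ, ∏ v, (1 + sg (y v) * Zl χ (update θ none (sg σ)) v) / 2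
    ∂cube (Option (Fin κ × A)), fun σ y => integral_nonneg_of_ae ?_, fun σ => ?_, fun σ => ?_,
    fun n D d f hn hn2 hD hd hf hf1 hP => ?_⟩
  · filter_upwards [cube_ae] with θ hθ
    refine prod_nonneg fun v _ => ?_
    have h1 := abs_Zl_le χ (θ := update θ none (sg σ)) (fun i => by
      cases i
      · simp [abs_sg]
      · simpa using hθ _) v
    have h2 : |sg (y v) * Zl χ (update θ none (sg σ)) v| ≤ 1 / 2 := by
      rwa [abs_mul, abs_sg, one_mul]
    linarith [(abs_le.1 h2).1]
  · have := hsum σ fun _ => 1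
    simp only [mul_one] at this
    rw [this]
    have h1 : ∀ θ : Option (Fin κ × A) → ℝ, ∑ y : Fin (κ + 1) × A → Bool,
        ∏ v, (1 + sg (y v) * Zl χ (update θ none (sg σ)) v) / 2 = 1 := fun θ => by
      rw [← Fintype.piFinset_univ, ← prod_univ_sum (fun _ => univ)
        fun v (b : Bool) => (1 + sg b * Zl χ (update θ none (sg σ)) v) / 2]
      exact prod_eq_one fun v _ => by simp; ring
    simp only [h1]
    simp
  · rw [hsum]; exact signal χ a₀ hχ h₀ σ
  · obtain ⟨P, _, B, l, W, h1, h2, h3, -, -, -, -, h8, h9⟩ := path_aux χ hχ f κ (by omega)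
    have e : ∀ Z : Fin (κ + 1) × A → ℝ,
        ∑ y : Fin (κ + 1) × A → Bool, (∏ v, (1 + sg (y v) * Z v) / 2) * f y = Dv ∅ f Z := fun Z => by
      simp [Dv, mul_comm]
    rw [hsum, hsum, abs_sub_comm]
    simp only [e, sg_true, sg_false]
    rw [h9, ← Real.norm_eq_abs]
    refine (norm_integral_le_of_norm_le_const ?_).trans_eq (by rw [probReal_univ, mul_one])
    filter_upwards [cube_ae] with θ hθ
    have := level_bound hn hn2 hD hd hf hf1 (abs_Zl_le χ hθ) B h2 h3 (fun π => W π θ)
      (by positivity) (fun π => h8 π θ hθ) (h1 ▸ hP)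
    simpa [Rl, div_eq_mul_inv] using this

end Crest.Agent.R350
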