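import Crest.Agent.R350.QBasic

/-! Row 350, part F2: the Hadamard kernel, the Forrelation circuit and its classical transcript. -/

set_option autoImplicit false
open Finset Function Matrix

namespace Crest.Agent.R350

/-- the Hadamard kernel -/
def had {n : ℕ} (a b : Fin n → Bool) : ℝ := ∏ i, sg (a i && b i)

lemma had_sq {n : ℕ} (a b : Fin n → Bool) : had a b ^ 2 = 1 := by
  simp [had, ← prod_pow, sg_sq]

lemma had_zero {n : ℕ} (a : Fin n → Bool) : had a (fun _ => false) = 1 := by
  simp [had]

namespace Tr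

variable {n : ℕ}

lemma had_orth (b c : Fin n → Bool) :
    ∑ a, had a b * had a c = if b = c then (Fintype.card (Fin n → Bool) : ℝ) else 0 := by
  split_ifs with h
  · subst h
    simp [← sq, had_sq]
  · have : ∑ a : Fin n → Bool, had a b * had a c =
        ∏ i, ∑ t : Bool, sg (t && b i) * sg (t && c i) := by
      rw [Finset.prod_univ_sum, Fintype.piFinset_univ]
      exact sum_congr rfl fun a _ => by rw [had, had, prod_mul_distrib]
    rw [this]
    obtain ⟨i, hi⟩ := Function.ne_iff.1 h
    refine prod_eq_zero (mem_univ i) ?_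
    revert hi
    cases b i <;> cases c i <;> simp

/-- the normalised Hadamard matrix -/
noncomputable def hadM (n : ℕ) : Matrix (Fin n → Bool) (Fin n → Bool) ℝ :=
  Matrix.of fun a b => had a b / √(Fintype.card (Fin n → Bool) : ℝ)

lemma hadM_orth : (hadM n)ᵀ * hadM n = 1 := by
  have hN : (0 : ℝ) < Fintype.card (Fin n → Bool) := by exact_mod_cast Fintype.card_pos
  ext b c
  simp only [mul_apply, transpose_apply, hadM, of_apply, div_mul_div_comm,
    Real.mul_self_sqrt hN.le, ← sum_div, had_orth, one_apply]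
  split_ifs
  · exact div_self hN.ne'
  · simp

/-- integer sign -/
def sz (b : Bool) : ℤ := if b then -1 else 1

lemma sz_cast (b : Bool) : (sz b : ℝ) = sg b := by cases b <;> simp [sz]

lemma abs_sz (b : Bool) : |sz b| = 1 := by cases b <;> simp [sz]

/-- the stages of the fast Hadamard transform -/
def fht (w : (Fin n → Bool) → ℤ) : ℕ → (Fin n → Bool) → ℤ
  | 0 => w
  | l + 1 => fun a => if h : l < n then
      fht w l (update a ⟨l, h⟩ false) + sz (a ⟨l, h⟩) * fht w l (update a ⟨l, h⟩ true) else 0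

/-- the layers -/
def lay (z : ℕ → (Fin n → Bool) → ℤ) : ℕ → (Fin n → Bool) → ℤ
  | 0 => fun _ => 1
  | i + 1 => fht (fun a => z i a * lay z i a) n

lemma abs_fht {w : (Fin n → Bool) → ℤ} {M : ℤ} (hw : ∀ a, |w a| ≤ M) (l : ℕ) (a : Fin n → Bool) :
    |fht w l a| ≤ 2 ^ l * M := by
  have hM : 0 ≤ M := (abs_nonneg _).trans (hw fun _ => false)
  induction l generalizing a with
  | zero => simpa [fht] using hw a
  | succ l ih =>
    simp only [fht]
    split_ifs with h
    · refine (abs_add_le _ _).trans ?_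
      rw [abs_mul, abs_sz, one_mul, pow_succ]
      linarith [ih (update a ⟨l, h⟩ false), ih (update a ⟨l, h⟩ true)]
    · rw [abs_zero]; positivity

lemma abs_lay {z : ℕ → (Fin n → Bool) → ℤ} (hz : ∀ i a, |z i a| ≤ 1) (i : ℕ) (a : Fin n → Bool) :
    |lay z i a| ≤ 2 ^ (n * i) := by
  induction i generalizing a with
  | zero => simp [lay]
  | succ i ih =>
    simp only [lay]
    refine (abs_fht (M := 2 ^ (n * i)) (fun a => ?_) n a).trans ?_
    · rw [abs_mul]
      nlinarith [hz i a, ih a, abs_nonneg (z i a), abs_nonneg (lay z i a)]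
    · rw [← pow_add, mul_add, mul_one, add_comm]

lemma fht_eq (w : (Fin n → Bool) → ℤ) (l : ℕ) (hl : l ≤ n) (b : Fin n → Bool) :
    (fht w l b : ℝ) = ∑ a, (∏ k : Fin n, if (k : ℕ) < l then sg (a k && b k) else
      if a k = b k then 1 else 0) * (w a : ℝ) := by
  induction l generalizing b with
  | zero =>
    simp only [fht, Nat.not_lt_zero, if_false]
    rw [sum_eq_single b]
    · simp
    · intro a _ ha
      obtain ⟨i, hi⟩ := Function.ne_iff.1 ha
      rw [prod_eq_zero (mem_univ i) (by simp [hi]), zero_mul]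
    · simp
  | succ l ih =>
    have h : l < n := hl
    simp only [fht, h, dif_pos]
    push_cast
    rw [ih h.le, ih h.le, sz_cast, mul_sum, ← sum_add_distrib]
    refine sum_congr rfl fun a _ => ?_
    rw [← mul_assoc, ← add_mul]
    congr 1
    simp only [← mul_prod_erase univ _ (mem_univ (⟨l, h⟩ : Fin n))]
    have e : ∀ t : Bool, ∏ k ∈ univ.erase (⟨l, h⟩ : Fin n),
        (if (k : ℕ) < l then sg (a k && update b ⟨l, h⟩ t k) else
          if a k = update b ⟨l, h⟩ t k then (1 : ℝ) else 0) =
        ∏ k ∈ univ.erase (⟨l, h⟩ : Fin n), if (k : ℕ) < l + 1 then sg (a k && b k) else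
          if a k = b k then 1 else 0 := by
      intro t
      refine prod_congr rfl fun k hk => ?_
      have hk' : k ≠ ⟨l, h⟩ := (mem_erase.1 hk).1
      have : (k : ℕ) < l + 1 ↔ (k : ℕ) < l := by
        have : (k : ℕ) ≠ l := fun e => hk' (Fin.ext e)
        omega
      simp only [update_of_ne hk', this]
    rw [e, e, ← mul_assoc, ← add_mul]
    congr 1
    cases a ⟨l, h⟩ <;> simp

lemma lay_eq {z : ℕ → (Fin n → Bool) → ℤ} {z' : ℕ → (Fin n → Bool) → ℝ}
    (hz : ∀ i a, (z i a : ℝ) = z' i a) (i : ℕ) (b : Fin n → Bool) :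
    (lay z i b : ℝ) = fw had z' i b := by
  induction i generalizing b with
  | zero => simp [lay, fw]
  | succ i ih =>
    simp only [lay, fw]
    rw [fht_eq _ n le_rfl]
    refine sum_congr rfl fun a _ => ?_
    simp only [Fin.is_lt, if_true, had]
    push_cast
    rw [hz, ih]

end Tr

/-- `H = had / √N` is orthogonal (`∑ a, had a b * had a c = if b = c then 2^n else 0` by
`Finset.prod_univ_sum`); `V 0 = H`, `V (i+1) = Hᵀ * phase (fun a => some (ι (i, a))) * V i`, and
`V i b a₀ = fw had z i b / √N^(i+1)`. -/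
lemma isQ_forr {I : Type} {n κ : ℕ} (ι : Fin (κ + 1) × (Fin n → Bool) → I) :
    ∃ V : (I → Bool) → Matrix (Fin n → Bool) (Fin n → Bool) ℝ, IsQ (κ + 1) V ∧
      ∀ x, V x (fun _ => false) (fun _ => false) = Phi had (fun _ => false) fun v => x (ι v) := by
  have key : ∀ i, i ≤ κ + 1 → ∃ V : (I → Bool) → Matrix (Fin n → Bool) (Fin n → Bool) ℝ,
      IsQ i V ∧ ∀ x b, V x b (fun _ => false) = fw had (zOf fun v => x (ι v)) i b /
        √(Fintype.card (Fin n → Bool) : ℝ) ^ (i + 1) := by
    intro i
    induction i with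
    | zero =>
      intro _
      exact ⟨fun _ => Tr.hadM n, IsQ.const Tr.hadM_orth, fun x b => by
        simp [Tr.hadM, had_zero, fw]⟩
    | succ i ih =>
      intro hi
      obtain ⟨V, hV, hV'⟩ := ih (by omega)
      have hi' : i < κ + 1 := hi
      refine ⟨fun x => (Tr.hadM n)ᵀ * phase (fun a => some (ι (⟨i, hi'⟩, a))) x * V x,
        ⟨(Tr.hadM n)ᵀ, ?_, _, V, hV, fun _ => rfl⟩, fun x b => ?_⟩
      · rw [transpose_transpose]; exact mul_eq_one_comm.1 Tr.hadM_orth
      · beta_reduce
        rw [mul_apply, fw, sum_div]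
        refine sum_congr rfl fun a _ => ?_
        rw [hV', phase, mul_diagonal, transpose_apply, Tr.hadM, of_apply]
        simp only [zOf, hi', dif_pos, Option.elim_some]
        rw [pow_succ _ (i + 1)]
        ring
  obtain ⟨V, hV, hV'⟩ := key (κ + 1) le_rfl
  exact ⟨V, hV, fun x => hV' x _⟩

/-- Fast Hadamard transform as a straight-line program on the gates `(i, l, a)`:
gate `(i, 0, a)` is `(if y (i, a) then -1 else 1) * (value of gate (i-1, n, a), or 1 if i = 0)`,
gate `(i, l+1, a)` is `val (i, l, update a l false) + (if a l then -1 else 1) * val (i, l, update a l true)`.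
Then `val (i, l, b) = ∑ a, (∏ k, if k < l then sg (a k && b k) else if a k = b k then 1 else 0) * val (i, 0, a)`,
so `val (i, n, b) = fw had (zOf y) (i+1) b`; and `|val (i, l, a)| ≤ 2 ^ (n * i + l)`. -/
theorem exists_transcript (n κ : ℕ) :
    ∃ (p₁ p₂ : Fin (κ + 1) × Fin (n + 1) × (Fin n → Bool) →
        Fin (κ + 1) × Fin (n + 1) × (Fin n → Bool))
      (inp : Fin (κ + 1) × Fin (n + 1) × (Fin n → Bool) → Fin (κ + 1) × (Fin n → Bool))
      (op : Fin (κ + 1) × Fin (n + 1) × (Fin n → Bool) → ℤ → ℤ → Bool → ℤ)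
      (fin : Fin (κ + 1) × Fin (n + 1) × (Fin n → Bool)),
      ∀ y : Fin (κ + 1) × (Fin n → Bool) → Bool,
        (∃ val : Fin (κ + 1) × Fin (n + 1) × (Fin n → Bool) → ℤ,
          (∀ g, val g = op g (val (p₁ g)) (val (p₂ g)) (y (inp g))) ∧
            ∀ g, |val g| ≤ 2 ^ (n * (κ + 1))) ∧
        ∀ val : Fin (κ + 1) × Fin (n + 1) × (Fin n → Bool) → ℤ,
          (∀ g, val g = op g (val (p₁ g)) (val (p₂ g)) (y (inp g))) →
            (val fin : ℝ) = fw had (zOf y) (κ + 1) fun _ => false := by
  refine ⟨fun g => Fin.cases (motive := fun _ => Fin (κ + 1) × Fin (n + 1) × (Fin n → Bool))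
      (⟨g.1 - 1, by omega⟩, Fin.last n, g.2.2)
      (fun l => (g.1, l.castSucc, update g.2.2 l false)) g.2.1,
    fun g => Fin.cases (motive := fun _ => Fin (κ + 1) × Fin (n + 1) × (Fin n → Bool))
      g (fun l => (g.1, l.castSucc, update g.2.2 l true)) g.2.1,
    fun g => (g.1, g.2.2),
    fun g => Fin.cases (motive := fun _ => ℤ → ℤ → Bool → ℤ)
      (fun u _ b => Tr.sz b * if g.1 = 0 then 1 else u)
      (fun l u v _ => u + Tr.sz (g.2.2 l) * v) g.2.1,
    (Fin.last κ, Fin.last n, fun _ => false), fun y => ?_⟩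
  set z : ℕ → (Fin n → Bool) → ℤ := fun i a => if h : i < κ + 1 then Tr.sz (y (⟨i, h⟩, a)) else 0
    with hz
  have hz1 : ∀ i a, |z i a| ≤ 1 := by
    intro i a
    simp only [hz]
    split_ifs <;> simp [Tr.abs_sz]
  refine ⟨⟨fun g => Tr.fht (fun a => z g.1 a * Tr.lay z g.1 a) g.2.1 g.2.2, ?_, ?_⟩, ?_⟩
  · rintro ⟨i, l, a⟩
    induction l using Fin.cases with
    | zero =>
      induction i using Fin.cases with
      | zero => simp [Tr.fht, Tr.lay, hz]
      | succ i => simp [Tr.fht, Tr.lay, hz, Fin.succ_ne_zero]; exact Or.inl rfl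
    | succ l => simp [Tr.fht]
  · rintro ⟨i, l, a⟩
    refine (Tr.abs_fht (M := 2 ^ (n * i)) (fun a => ?_) l a).trans ?_
    · rw [abs_mul]
      nlinarith [hz1 i a, Tr.abs_lay hz1 i a, abs_nonneg (z i a), abs_nonneg (Tr.lay z i a)]
    · rw [← pow_add]
      refine pow_le_pow_right₀ (by norm_num) ?_
      have h1 : (l : ℕ) ≤ n := by omega
      have h2 : (i : ℕ) ≤ κ := by omega
      nlinarith
  · intro val hval
    have inner : ∀ i : Fin (κ + 1), (∀ a, val (i, 0, a) = z i a * Tr.lay z i a) →
        ∀ (l : Fin (n + 1)) a, val (i, l, a) = Tr.fht (fun a => z i a * Tr.lay z i a) l a := by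
      intro i h0 l
      induction l using Fin.induction with
      | zero => exact h0
      | succ l ih =>
        intro a
        rw [hval]
        simp [Tr.fht, ih]
    have outer : ∀ (i : Fin (κ + 1)) a, val (i, 0, a) = z i a * Tr.lay z i a := by
      intro i
      induction i using Fin.induction with
      | zero => intro a; rw [hval]; simp [Tr.lay, hz]
      | succ i ih =>
        intro a
        have := inner _ ih (Fin.last n) a
        rw [hval]
        simp only [Fin.cases_zero, Fin.succ_ne_zero, if_false, Fin.val_succ, Tr.lay]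
        simp only [Fin.val_castSucc, Fin.val_last] at this
        rw [← this]
        simp [hz]
        rfl
    rw [inner _ (outer _), ← Tr.lay_eq (z := z)]
    · rfl
    · intro i a
      simp only [hz, zOf]
      split_ifs <;> simp [Tr.sz_cast]

end Crest.Agent.R350
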