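import Crest.Agent.R350.QBridge
import Crest.Agent.R350.Elim
import Crest.Agent.R350.Lower
import Crest.Agent.R350.Stein
import Crest.Agent.R350.Cheb
import Crest.Agent.R350.Trans

/-! Row 350, part F: the function and its two bounds. -/

set_option autoImplicit false
open Finset Function Matrix Crest.MathPhysics.Query

namespace Crest.Agent.R350

lemma exists_dec (B : ℕ) : ∃ dec : (Fin (B + 2) → Bool) → ℤ, ∀ z : ℤ, |z| ≤ 2 ^ B →
    ∃ b, dec b = z := by
  let e : (Fin (B + 2) → Bool) ≃ Fin (2 ^ (B + 2)) := Fintype.equivFinOfCardEq (by simp)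
  refine ⟨fun b => (e b : ℕ) - 2 ^ B, fun z hz => ?_⟩
  obtain ⟨h1, h2⟩ := abs_le.1 hz
  obtain ⟨k, hk⟩ := Int.eq_ofNat_of_zero_le (show 0 ≤ z + 2 ^ B by linarith)
  have hk2 : k < 2 ^ (B + 2) := by
    have : (k : ℤ) < 2 ^ (B + 2) := by
      have : (0 : ℤ) < 2 ^ B := by positivity
      rw [← hk, pow_add]; linarith
    exact_mod_cast this
  exact ⟨e.symm ⟨k, hk2⟩, by simp [← hk]⟩

/-- quantum evaluation of the address bits of a row -/
lemma decode_alg {I : Type} {n ρ κ : ℕ} (ι : Fin n × Fin ρ → Fin (κ + 1) × (Fin n → Bool) → I)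
    {a : ℝ} (ha : 0 < a) (hρ : (n : ℝ) * ρ / a ^ 2 ≤ 1 / 10) :
    ∃ w : (I → Bool) → (Fin n → Bool) → ℝ, Realiz (n * ρ * (κ + 1)) w ∧ ∀ x α,
      (∀ s, a ≤ sg (α s) * ∑ t, Phi had (fun _ => false) fun v => x (ι (s, t) v)) →
        9 / 10 ≤ w x α := by
  have h1 : ∀ c, Realiz (κ + 1) fun (x : I → Bool) (o : Bool) =>
      (1 + sg o * Phi had (fun _ => false) fun v => x (ι c v)) / 2 := fun c => by
    obtain ⟨V, hV, hV'⟩ := isQ_forr (ι c)
    simpa only [hV'] using hadTest hV fun _ => false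
  have h2 := (Realiz.pi h1).map fun o (s : Fin n) => decide (∑ t, sg (o (s, t)) < 0)
  simp only [Fintype.card_prod, Fintype.card_fin] at h2
  refine ⟨_, h2, fun x α hα => ?_⟩
  have h3 := cheb (fun c (o : Bool) => (1 + sg o * Phi had (fun _ => false) fun v => x (ι c v)) / 2)
    (fun c o => sg (α c.1) * sg o) (fun c o => (h1 c).nonneg x o) (fun c => (h1 c).sum_eq_one x)
    (fun c o => by rw [abs_mul, abs_sg, abs_sg, one_mul]) ha
    (fun o => ¬ (fun s : Fin n => decide (∑ t, sg (o (s, t)) < 0)) = α) (fun o ho => by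
      obtain ⟨s, hs⟩ := Function.ne_iff.1 ho
      refine ⟨s, ?_⟩
      have h4 := hα s
      have h5 : ∀ t, ∑ o : Bool, (1 + sg o * Phi had (fun _ => false) fun v => x (ι (s, t) v)) / 2 *
          (sg (α s) * sg o) = sg (α s) * Phi had (fun _ => false) fun v => x (ι (s, t) v) :=
        fun t => by simp; ring
      simp only [h5, ← mul_sum]
      cases h : α s <;> simp [h] at hs h4 ⊢ <;> linarith)
  have h4 := (Realiz.pi h1).sum_eq_one x
  simp only [Fintype.card_fin] at h3
  have h5 : ∑ o : Fin n × Fin ρ → Bool,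
      ((if (fun s : Fin n => decide (∑ t, sg (o (s, t)) < 0)) = α then
        ∏ c, (1 + sg (o c) * Phi had (fun _ => false) fun v => x (ι c v)) / 2 else 0) +
      (if ¬ (fun s : Fin n => decide (∑ t, sg (o (s, t)) < 0)) = α then
        ∏ c, (1 + sg (o c) * Phi had (fun _ => false) fun v => x (ι c v)) / 2 else 0)) = 1 := by
    exact (sum_congr rfl fun o _ => by split_ifs <;> simp).trans h4
  rw [sum_add_distrib] at h5
  linarith

lemma abs_Phi_le {n κ : ℕ} (y : Fin (κ + 1) × (Fin n → Bool) → Bool) :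
    |Phi had (fun _ => false) y| ≤ 1 := by
  obtain ⟨V, hV, hV'⟩ := isQ_forr (n := n) (κ := κ) id
  have h1 := (hadTest hV fun _ => false).nonneg y true
  have h2 := (hadTest hV fun _ => false).nonneg y false
  simp only [hV', id, sg_true, sg_false] at h1 h2
  rw [abs_le]; constructor <;> linarith

theorem core (j κ d ρ T J' : ℕ) (hj : 1 ≤ j) (hd : 1 ≤ d) (hρ0 : 0 < ρ)
    (hρ : 160 * 64 ^ κ * (2 * j) ≤ ρ) (hT : (2 : ℝ) ^ (2 * j) * (7 / 8) ^ T ≤ 1 / 5)
    (hJ' : 2 ^ (2 * j) * (3 + 2 * j * ρ * ((κ + 1) * (2 * j + 1))) ≤ J' ^ 2) :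
    ∃ (N : ℕ) (F : (Fin N → Bool) → Bool),
      QuantumComputes F (T * (2 * (2 * 2 ^ j) * (2 * j * ρ * (κ + 1) + 2 * T * (2 * j + 1))) +
        5 * (2 * J' * ((ρ + 4) * (2 * j * (κ + 1) + 2)))) ∧
      ∀ q, RandomizedComputes F q →
        4 / 15 - 2 * (d / 2 ^ (2 * j)) - (2 * j * ρ : ℝ) *
          (6 * (6 * (2 * j * (κ + 1)) * √d) ^ (κ + 1) / (2 ^ j) ^ κ) ≤
            q / (2 ^ (2 * j) * (d + 1) : ℝ) := by
  classical
  set n := 2 * j with hn
  set A := Fin n → Bool
  set C := Fin n × Fin ρ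
  set V := Fin (κ + 1) × A
  set G := Fin (κ + 1) × Fin (n + 1) × A
  set E := n * (κ + 1) + 2
  set Ce := (A × Fin n) ⊕ ((C × G) × Fin E)
  set I := Idx A A C V A Ce
  set a : ℝ := ρ / (4 * 8 ^ κ) with ha
  have hA : Fintype.card A = 2 ^ n := by simp [A]
  have ha0 : 0 < a := by positivity
  have hρa : (n : ℝ) * ρ / a ^ 2 ≤ 1 / 10 := by
    have h1 : (160 * 64 ^ κ * n : ℝ) ≤ ρ := by exact_mod_cast hρ
    have h2 : (64 : ℝ) ^ κ = (8 ^ κ) ^ 2 := by rw [← pow_mul, mul_comm, pow_mul]; norm_num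
    have h3 : (0 : ℝ) < ρ := by exact_mod_cast hρ0
    rw [h2] at h1
    rw [ha, div_le_iff₀ (by positivity), div_pow]
    field_simp
    nlinarith
  obtain ⟨p₁, p₂, inp, op, fin, htr⟩ := exists_transcript n κ
  obtain ⟨dec, hdec⟩ := exists_dec (n * (κ + 1))
  obtain ⟨μ, hμ0, hμ1, hsig, hind⟩ := forr_dist κ (had (n := n)) (fun _ => false) had_sq had_zero
  choose w hw hw' using fun r : A =>
    decode_alg (fun (c : C) (v : V) => ((r, .inr (.inl (c, v))) : I)) ha0 hρa
  let beats : A × A → A → (I → Bool) → Bool := fun c r x =>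
    x (r, .inl fun s => x (c.1, .inr (.inr (c.2, .inl (r, s)))))
  let val : A × A → C → G → (I → Bool) → ℤ := fun c γ g x =>
    dec fun e => x (c.1, .inr (.inr (c.2, .inr ((γ, g), e))))
  let ok : A × A → (A ⊕ A ⊕ (C × G) ⊕ Fin n) → (I → Bool) → Bool := fun c k x =>
    match k with
    | .inl m => !x (c.1, .inl m)
    | .inr (.inl r) => decide (r = c.1) || beats c r x
    | .inr (.inr (.inl (γ, g))) => decide (val c γ g x =
        op g (val c γ (p₁ g) x) (val c γ (p₂ g) x) (x (c.1, .inr (.inl (γ, inp g)))))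
    | .inr (.inr (.inr s)) => decide (a ≤ sg (c.2 s) *
        ∑ t, (val c (s, t) fin x : ℝ) / √(Fintype.card A : ℝ) ^ (κ + 2))
  let F : (I → Bool) → Bool := fun x => decide (∃ c, ∀ k, ok c k x = true)
  have hF : ∀ x, F x = true ↔ ∃ c, ∀ k, ok c k x = true := fun x => by simp only [F, decide_eq_true_iff]
  have hb : ∀ c r, DT (n + 1) (beats c r) := fun c r => by
    have := (DT.pi (C := Fin n) fun s => DT.var ((c.1, .inr (.inr (c.2, .inl (r, s)))) : I)).bind
      (h := fun (m : A) (x : I → Bool) => x (r, .inl m)) fun m => DT.var _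
    simpa using this
  have hval : ∀ c γ g, DT E (val c γ g) := fun c γ g => by
    have := (DT.pi (C := Fin E) fun e =>
      DT.var ((c.1, .inr (.inr (c.2, .inr ((γ, g), e)))) : I)).map dec
    simpa using this
  have hnE : n + 1 ≤ E := by simp only [E]; nlinarith
  have hok : ∀ c k, DT ((ρ + 4) * E) (ok c k) := fun c k => by
    rcases k with m | r | ⟨γ, g⟩ | s
    · exact ((DT.var _).map fun b => !b).mono (by nlinarith)
    · exact ((hb c r).map fun b => decide (r = c.1) || b).mono (by nlinarith)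
    · exact ((((hval c γ g).pair (hval c γ (p₁ g))).pair ((hval c γ (p₂ g)).pair
        (DT.var ((c.1, .inr (.inl (γ, inp g))) : I)))).map
        fun z => decide (z.1.1 = op g z.1.2 z.2.1 z.2.2)).mono (by nlinarith)
    · exact ((DT.pi fun t : Fin ρ => hval c (s, t) fin).map fun z : Fin ρ → ℤ =>
        decide (a ≤ sg (c.2 s) * ∑ t, (z t : ℝ) / √(Fintype.card A : ℝ) ^ (κ + 2))).mono
        (by simp only [Fintype.card_fin]; nlinarith)
  obtain ⟨P, hP, hP'⟩ := elim_alg (T := T) (J := 2 * 2 ^ j) (J' := J') w hw beats hb ok hok F hF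
    (fun x c hc => by
      refine ⟨hw' c.1 x c.2 fun s => ?_, fun r hr => ?_, fun c' => ?_⟩
      · have h1 := hc (.inr (.inr (.inr s)))
        simp only [ok, decide_eq_true_iff] at h1
        convert h1 using 3 with t
        rw [(htr fun v => x (c.1, .inr (.inl ((s, t), v)))).2 (fun g => val c (s, t) g x)
          fun g => by simpa [ok] using hc (.inr (.inr (.inl ((s, t), g))))]
        rfl
      · simpa [ok, hr] using hc (.inr (.inl r))
      · simpa [ok] using hc (.inl _))
    (by rw [hA]; exact_mod_cast hT)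
    (by rw [hA, hn, mul_pow, ← pow_mul, mul_comm j]; omega)
    (by
      refine le_trans ?_ hJ'
      have : n ≤ 2 ^ n := Nat.lt_two_pow_self.le
      simp only [Fintype.card_sum, Fintype.card_prod, Fintype.card_fin, hA, C, G]
      nlinarith)
  let e := (Fintype.equivFin I).symm
  refine ⟨_, _, hP.quantumComputes e hP', fun q hq => ?_⟩
  have key := lower_bound F (fun (α : A) (c : C) => α c.1) μ hμ0 hμ1 (d := d) (η := 1 / 10)
    (fun f hf hf1 => hind (n * (κ + 1)) d d f (by rw [hn, mul_assoc]; exact even_two_mul _)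
      (by nlinarith) hd le_rfl hf hf1 (by rw [hA, pow_mul 2 n]))
    (fun α Y => ∀ s, a ≤ sg (α s) * ∑ t, Phi had (fun _ => false) (Y (s, t)))
    (fun α => by
      have := cheb (fun c : C => μ (α c.1)) (fun c y => sg (α c.1) * Phi had (fun _ => false) y)
        (fun c y => hμ0 _ _) (fun c => hμ1 _)
        (fun c y => by rw [abs_mul, abs_sg, one_mul]; exact abs_Phi_le y) ha0
        (fun Y => ¬ ∀ s, a ≤ sg (α s) * ∑ t, Phi had (fun _ => false) (Y (s, t))) (fun Y hY => by
          obtain ⟨s, hs⟩ := not_forall.1 hY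
          refine ⟨s, ?_⟩
          have h1 := hsig (α s)
          have h2 : ∑ y, μ (α s) y * (sg (α s) * Phi had (fun _ => false) y) =
              sg (α s) * ∑ y, μ (α s) y * Phi had (fun _ => false) y := by
            rw [mul_sum]; exact sum_congr rfl fun _ _ => by ring
          simp only [h2, ← mul_sum, sum_const, card_univ, Fintype.card_fin, nsmul_eq_mul]
          have h3 : a + a = ρ * (1 / (2 * 8 ^ κ)) := by rw [ha]; field_simp; norm_num
          have h4 := mul_le_mul_of_nonneg_left h1 (Nat.cast_nonneg (α := ℝ) ρ)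
          linarith [not_le.1 hs])
      simp only [Fintype.card_fin, ite_not] at this
      exact this.trans hρa)
    (fun x hx => by
      rw [Bool.eq_false_iff, Ne, hF]
      rintro ⟨c, hc⟩
      obtain ⟨m, hm⟩ := hx c.1
      simpa [ok, hm] using hc (.inl m))
    (fun x r α h1 h2 h3 => by
      choose! m hm using h2
      choose tv htv htv' using fun γ : C => (htr fun v => x (r, .inr (.inl (γ, v)))).1
      choose enc henc using fun γ g => hdec _ (htv' γ g)
      let fill : Ce → Bool := fun z => z.elim (fun u => m u.1 u.2) fun u => enc u.1.1 u.1.2 u.2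
      let x' : I → Bool := fun i => match i with
        | (r', .inr (.inr (α', z))) => if r' = r ∧ α' = α then fill z else x i
        | _ => x i
      have hv : ∀ γ g, val (r, α) γ g x' = tv γ g := fun γ g => by
        simp [val, x', fill, henc]
      refine ⟨x', fun i hi => ?_, (hF _).2 ⟨(r, α), fun k => ?_⟩⟩
      · rcases i with ⟨r', m' | u | ⟨α', z⟩⟩
        · rfl
        · rfl
        · refine if_neg ?_
          rintro ⟨rfl, rfl⟩
          exact hi z rfl
      · rcases k with m' | r' | ⟨γ, g⟩ | s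
        · simp [ok, x', h1]
        · by_cases hr : r' = r
          · simp [ok, hr]
          · simp [ok, beats, x', fill, hm r' hr]
        · simp only [ok, hv, decide_eq_true_iff]
          exact htv γ g
        · simp only [ok, hv, decide_eq_true_iff]
          convert h3 s using 3 with t
          rw [(htr fun v => x (r, .inr (.inl ((s, t), v)))).2 _ (htv (s, t))]
          rfl) e hq
  have hs : √(2 ^ n : ℝ) = 2 ^ j := by
    rw [hn, mul_comm, pow_mul, Real.sqrt_sq (by positivity)]
  have hA' : Fintype.card (Fin n → Bool) = 2 ^ n := hA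
  simp only [hA, hA', C, Fintype.card_prod, Fintype.card_fin] at key
  push_cast at key
  rw [hs] at key
  have hn' : (n : ℝ) = 2 * j := by simp [hn]
  rw [hn'] at key
  linarith

end Crest.Agent.R350
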