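import Crest.Agent.R350.QBasic

/-! Row 350, part A2: amplitude amplification and search with an unknown number of solutions. -/

set_option autoImplicit false
open Finset Function Matrix

namespace Crest.Agent.R350

variable {I β : Type} [DecidableEq β] [Fintype β]

/-- the Grover iterates -/
def grov {J : Type} [Fintype J] [DecidableEq J] (A S₀ S : Matrix J J ℝ) : ℕ → Matrix J J ℝ
  | 0 => A
  | t + 1 => A * (S₀ * (Aᵀ * (S * grov A S₀ S t)))

lemma refl_apply {J : Type} [Fintype J] [DecidableEq J] {A : Matrix J J ℝ} (hA : Aᵀ * A = 1)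
    (j₀ j k : J) : (A * diagonal (fun m => if m = j₀ then (1 : ℝ) else -1) * Aᵀ) j k =
      2 * A j j₀ * A k j₀ - if j = k then 1 else 0 := by
  have h0 : A * Aᵀ = 1 := mul_eq_one_comm.1 hA
  have h1 := congrFun (congrFun h0 j) k
  rw [mul_apply, one_apply] at h1
  rw [mul_apply, ← h1]
  simp only [mul_diagonal, transpose_apply]
  have : ∀ m, A j m * (if m = j₀ then (1 : ℝ) else -1) * A k m =
      (if m = j₀ then 2 * A j m * A k m else 0) - A j m * A k m := fun m => by
    split_ifs <;> ring
  simp only [this, Finset.sum_sub_distrib, Finset.sum_ite_eq', Finset.mem_univ, if_true]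

lemma grov_col {J : Type} [Fintype J] [DecidableEq J] {A : Matrix J J ℝ} (hA : Aᵀ * A = 1)
    (j₀ : J) (g : J → Bool) {p : ℝ} (hp : p = ∑ j, if g j then A j j₀ ^ 2 else 0) (t : ℕ) (j : J) :
    grov A (diagonal fun m => if m = j₀ then (1 : ℝ) else -1) (diagonal fun m => sg (g m)) t j j₀ =
      (if g j then (ampC p t).1 else (ampC p t).2) * A j j₀ := by
  have h1 : ∑ j, A j j₀ ^ 2 = 1 := by
    have := congrFun (congrFun hA j₀) j₀
    rw [mul_apply, one_apply_eq] at this
    simpa [sq] using this
  induction t generalizing j with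
  | zero => simp [grov, ampC]
  | succ t ih =>
    rw [grov, ← Matrix.mul_assoc, ← Matrix.mul_assoc, mul_apply]
    simp only [refl_apply hA, diagonal_mul, ih]
    have h2 : ∀ k, (2 * A j j₀ * A k j₀ - if j = k then 1 else 0) *
        (sg (g k) * ((if g k then (ampC p t).1 else (ampC p t).2) * A k j₀)) =
        2 * A j j₀ * ((ampC p t).2 * A k j₀ ^ 2 -
          ((ampC p t).1 + (ampC p t).2) * (if g k then A k j₀ ^ 2 else 0)) -
        if j = k then sg (g k) * ((if g k then (ampC p t).1 else (ampC p t).2) * A k j₀)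
          else 0 := fun k => by
      cases g k <;> split_ifs <;> simp_all <;> ring
    simp only [h2, Finset.sum_sub_distrib, ← Finset.mul_sum, h1, ← hp, Finset.sum_ite_eq,
      Finset.mem_univ, if_true]
    cases g j <;> simp [ampC] <;> ring

/-- Amplitude amplification. With `ψ = A x · j₀` (column), `S₀ = diagonal (if j = j₀ then 1 else -1)`,
`S = diagonal (if good (out j) then -1 else 1)`, the family `A_t = (A S₀ Aᵀ S)^t A` is
`IsQ ((2t+1) T)` and `A S₀ Aᵀ = 2 ψ ψᵀ - 1`, so by induction on `t` its column `j₀` is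
`j ↦ (if good (out j) then (ampC p t).1 else (ampC p t).2) * ψ j`,
where `p = ∑_{good (out j)} ψ j ^ 2` and `∑ ψ j ^ 2 = 1`. -/
lemma Realiz.amp {T : ℕ} {P : (I → Bool) → β → ℝ} (h : Realiz T P) (good : β → Bool) (t : ℕ) :
    Realiz ((2 * t + 1) * T) fun x b =>
      (if good b then (ampC (∑ b', if good b' then P x b' else 0) t).1
        else (ampC (∑ b', if good b' then P x b' else 0) t).2) ^ 2 * P x b := by
  obtain ⟨J, _, _, A, j₀, out, hA, hP⟩ := h
  have hS₀ : IsQ 0 fun _ : I → Bool => (diagonal fun m : J => if m = j₀ then (1 : ℝ) else -1) :=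
    IsQ.const (by
      rw [diagonal_transpose, diagonal_mul_diagonal, ← diagonal_one]
      congr 1; ext m; split_ifs <;> simp)
  have hS : IsQ 0 fun _ : I → Bool => (diagonal fun m : J => sg (good (out m))) :=
    IsQ.const (by
      rw [diagonal_transpose, diagonal_mul_diagonal, ← diagonal_one]
      congr 1; ext m; exact sg_mul_self _)
  refine ⟨J, inferInstance, inferInstance, fun x => grov (A x)
    (diagonal fun m => if m = j₀ then (1 : ℝ) else -1) (diagonal fun m => sg (good (out m))) t,
    j₀, out, ?_, fun x b => ?_⟩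
  · induction t with
    | zero => simpa [grov] using hA
    | succ t ih =>
      exact (hA.mul (hS₀.mul (hA.transpose.mul (hS.mul ih)))).mono (le_of_eq (by ring))
  · have hp : (∑ b', if good b' then P x b' else 0) =
        ∑ j, if good (out j) then A x j j₀ ^ 2 else 0 := by
      have : ∀ b', (if good b' then P x b' else 0) =
          ∑ j, if out j = b' then (if good (out j) then A x j j₀ ^ 2 else 0) else 0 := fun b' => by
        rw [hP]
        split_ifs with hb
        · exact Finset.sum_congr rfl fun j _ => by split_ifs <;> simp_all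
        · exact (Finset.sum_eq_zero fun j _ => by split_ifs <;> simp_all).symm
      simp only [this]
      rw [Finset.sum_comm]
      simp
    simp only [grov_col (hA.orth x) j₀ (fun m => good (out m)) hp]
    rw [hP x b, Finset.mul_sum]
    refine Finset.sum_congr rfl fun j _ => ?_
    by_cases hj : out j = b
    · subst hj; simp [mul_pow]
    · simp [hj]

/-- Boyer–Brassard–Høyer–Tapp average: write `p = sin θ ^ 2`, `0 < θ ≤ π/4`; then
`(ampC p t).1 * sin θ = sin ((2t+1)θ)` and `(ampC p t).2 * cos θ = cos ((2t+1)θ)` (induction), and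
`∑_{t<J} sin²((2t+1)θ) = J/2 - sin (4Jθ) / (4 sin (2θ))` (induction on `J` for
`2 sin (2θ) ∑_{t<J} cos ((4t+2)θ) = sin (4Jθ)`), with `sin (2θ) ^ 2 = 4p(1-p) ≥ 2p ≥ 1/J²`. -/
lemma ampC_avg {p : ℝ} {J : ℕ} (hp : p ≤ 1 / 2) (hJ : 1 ≤ (J : ℝ) ^ 2 * (2 * p)) :
    (J : ℝ) / 4 ≤ ∑ t ∈ range J, (ampC p t).1 ^ 2 * p := by
  have hp0 : 0 ≤ p := by
    by_contra hneg
    nlinarith [sq_nonneg (J : ℝ)]
  set θ := Real.arcsin √p with hθ
  have hs : Real.sin θ = √p :=
    Real.sin_arcsin (by linarith [Real.sqrt_nonneg p]) (Real.sqrt_le_one.2 (by linarith))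
  have hs2 : Real.sin θ ^ 2 = p := by rw [hs, Real.sq_sqrt hp0]
  have hc2 : Real.cos θ ^ 2 = 1 - p := by rw [Real.cos_sq', hs2]
  have hc : 0 ≤ Real.cos θ := Real.cos_arcsin_nonneg _
  have key : ∀ t : ℕ, (ampC p t).1 * Real.sin θ = Real.sin ((2 * t + 1) * θ) ∧
      (ampC p t).2 * Real.cos θ = Real.cos ((2 * t + 1) * θ) := by
    intro t
    induction t with
    | zero => simp [ampC]
    | succ t ih =>
      rw [show (2 * ((t + 1 : ℕ) : ℝ) + 1) * θ = (2 * t + 1) * θ + 2 * θ by push_cast; ring,
        Real.sin_add, Real.cos_add, ← ih.1, ← ih.2, Real.sin_two_mul, Real.cos_two_mul]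
      simp only [ampC]
      constructor
      · linear_combination (-2 * (ampC p t).1 * Real.sin θ - 2 * (ampC p t).2 * Real.sin θ) * hc2
      · linear_combination (-2 * (ampC p t).2 * Real.cos θ) * hc2 +
          (2 * (ampC p t).1 * Real.cos θ) * hs2
  have h1 : ∀ t : ℕ, (ampC p t).1 ^ 2 * p = 1 / 2 - Real.cos ((4 * t + 2) * θ) / 2 := fun t => by
    rw [← hs2, ← mul_pow, hs2, (key t).1, Real.sin_sq_eq_half_sub]
    congr 3; ring
  have h2 : ∀ n : ℕ, 2 * Real.sin (2 * θ) * ∑ t ∈ range n, Real.cos ((4 * t + 2) * θ) =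
      Real.sin (4 * n * θ) := by
    intro n
    induction n with
    | zero => simp
    | succ n ih =>
      rw [Finset.sum_range_succ, mul_add, ih,
        show 4 * ((n + 1 : ℕ) : ℝ) * θ = (4 * n + 2) * θ + 2 * θ by push_cast; ring,
        show 4 * (n : ℝ) * θ = (4 * n + 2) * θ - 2 * θ by ring, Real.sin_add, Real.sin_sub]
      ring
  have hσ0 : 0 ≤ Real.sin (2 * θ) := by
    rw [Real.sin_two_mul, hs]; positivity
  have hσ2 : Real.sin (2 * θ) ^ 2 = 4 * p * (1 - p) := by
    rw [Real.sin_two_mul, mul_pow, mul_pow, hs2, hc2]; ring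
  have hJσ : 1 ≤ J * Real.sin (2 * θ) := by
    refine (one_le_sq_iff₀ (by positivity)).1 ?_
    rw [mul_pow, hσ2]
    refine hJ.trans (mul_le_mul_of_nonneg_left ?_ (sq_nonneg _))
    nlinarith
  have hσ : 0 < Real.sin (2 * θ) := by
    rcases hσ0.lt_or_eq with h | h
    · exact h
    · rw [← h] at hJσ; linarith
  have h3 : 2 * ∑ t ∈ range J, Real.cos ((4 * t + 2) * θ) ≤ J := by
    refine le_of_mul_le_mul_right ?_ hσ
    have := h2 J
    linarith [Real.sin_le_one (4 * J * θ)]
  simp only [h1, Finset.sum_sub_distrib, ← Finset.sum_div, Finset.sum_const, card_range,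
    nsmul_eq_mul]
  linarith

/-- Search. First dilute: `P₂ x : Option β → ℝ`, `none ↦ 1/2`, `some b ↦ P x b / 2` (a fair coin
`realiz_dist`, `bind`, `map`), so the good mass is `p/2 ≤ 1/2`. Pick `t : Fin J` uniformly
(`realiz_dist`, `bind`), run `amp` (cost `(2t+1)T ≤ 2JT`, `mono`), and `map` every outcome which is
not a good `some b` to `none`. Then `γ = (∑_{t<J} (ampC (p/2) t).1 ^ 2) / (2J)`. -/
lemma Realiz.search {T : ℕ} {P : (I → Bool) → β → ℝ} (h : Realiz T P) (good : β → Bool) {J : ℕ}
    (hJ : 0 < J) :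
    ∃ P' : (I → Bool) → Option β → ℝ, Realiz (2 * J * T) P' ∧ ∀ x, ∃ γ : ℝ, 0 ≤ γ ∧
      (∀ b, P' x (some b) = if good b then γ * P x b else 0) ∧
      (1 ≤ (J : ℝ) ^ 2 * (∑ b, if good b then P x b else 0) →
        1 / 4 ≤ γ * ∑ b, if good b then P x b else 0) := by
  have hJ' : (0 : ℝ) < J := by exact_mod_cast hJ
  have h₂ := (realiz_dist (I := I) (β := Bool) (p := fun _ => 1 / 2) (fun _ => by norm_num)
    (by simp)).bind (T₂ := T)
    (Q := fun c x o => ∑ b, if (if c then some b else none) = o then P x b else 0)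
    fun c => h.map fun b => if c then some b else none
  set P₂ : (I → Bool) → Option β → ℝ := fun x o => ∑ c : Bool, 1 / 2 *
    ∑ b, if (if c then some b else none) = o then P x b else 0 with hP₂
  have hP₂s : ∀ x b, P₂ x (some b) = P x b / 2 := fun x b => by
    simp [hP₂]; ring
  let good₂ : Option β → Bool := fun o => o.elim false good
  have hmass : ∀ x, (∑ o, if good₂ o then P₂ x o else 0) =
      (∑ b, if good b then P x b else 0) / 2 := fun x => by
    rw [Fintype.sum_option, Finset.sum_div]
    simp only [good₂, Option.elim_none, Option.elim_some, Bool.false_eq_true, if_false, zero_add,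
      hP₂s]
    exact Finset.sum_congr rfl fun b _ => by split_ifs <;> simp
  have h₃ := ((realiz_dist (I := I) (β := Fin J) (p := fun _ => 1 / J) (fun _ => by positivity)
    (by simp [hJ'.ne'])).bind (T₂ := 2 * J * T) fun t : Fin J =>
      (Realiz.amp h₂ good₂ t).mono (by
        rw [zero_add]
        exact Nat.mul_le_mul_right _ (by have := t.2; omega))).map
    fun o => if good₂ o then o else none
  rw [zero_add] at h₃
  refine ⟨_, h₃, fun x => ⟨(∑ t ∈ range J,
    (ampC ((∑ b, if good b then P x b else 0) / 2) t).1 ^ 2) / (2 * J), by positivity,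
    fun b => ?_, fun hp => ?_⟩⟩
  · rw [Finset.sum_eq_single (some b)]
    · have hg : good₂ (some b) = good b := rfl
      rw [hg, hmass, hP₂s]
      generalize (∑ b, if good b then P x b else 0) / 2 = q
      cases good b
      · simp
      · simp only [if_true]
        rw [Finset.sum_range, Finset.sum_div, Finset.sum_mul]
        exact Finset.sum_congr rfl fun t _ => by field_simp
    · intro o _ ho
      rw [if_neg]
      split_ifs
      · exact ho
      · simp
    · simp
  · have hle : (∑ b, if good b then P x b else 0) ≤ 1 := by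
      rw [← h.sum_eq_one x]
      exact Finset.sum_le_sum fun b _ => by
        split_ifs
        exacts [le_rfl, h.nonneg x b]
    have := ampC_avg (p := (∑ b, if good b then P x b else 0) / 2) (J := J) (by linarith)
      (by rw [mul_div_cancel₀ _ two_ne_zero]; exact hp)
    rw [← Finset.sum_mul] at this
    rw [div_mul_eq_mul_div, le_div_iff₀ (by positivity)]
    linarith

end Crest.Agent.R350
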