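import Crest.Agent.R350.Defs

/-! Row 350, part A1: closure properties of `IsQ` and `Realiz`. -/

set_option autoImplicit false
open Finset Function Matrix

namespace Crest.Agent.R350

section IsQ
variable {I J : Type} [Fintype J] [DecidableEq J]

lemma IsQ.const {U : Matrix J J ℝ} (hU : Uᵀ * U = 1) : IsQ 0 fun _ : I → Bool => U := by
  exact ⟨U, hU, fun _ => rfl⟩

omit [Fintype J] in
lemma QB.phase_transpose (ℓ : J → Option I) (x : I → Bool) : (phase ℓ x)ᵀ = phase ℓ x := by
  unfold phase; rw [diagonal_transpose]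

lemma QB.phase_orth (ℓ : J → Option I) (x : I → Bool) : (phase ℓ x)ᵀ * phase ℓ x = 1 := by
  rw [QB.phase_transpose]
  unfold phase
  rw [diagonal_mul_diagonal, ← diagonal_one]
  congr 1
  funext j
  cases ℓ j <;> simp [sg_mul_self]

lemma QB.const_mul {T : ℕ} {U : Matrix J J ℝ} (hU : Uᵀ * U = 1)
    {B : (I → Bool) → Matrix J J ℝ} (hB : IsQ T B) : IsQ T fun x => U * B x := by
  have key : ∀ U' : Matrix J J ℝ, U'ᵀ * U' = 1 → (U * U')ᵀ * (U * U') = 1 := fun U' h => by
    rw [transpose_mul, Matrix.mul_assoc, ← Matrix.mul_assoc Uᵀ, hU, Matrix.one_mul, h]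
  cases T with
  | zero =>
    obtain ⟨U', hU', hB⟩ := hB
    exact ⟨U * U', key U' hU', fun x => by simp only [hB]⟩
  | succ T =>
    obtain ⟨U', hU', ℓ, B', hB', hB⟩ := hB
    exact ⟨U * U', key U' hU', ℓ, B', hB', fun x => by simp only [hB, Matrix.mul_assoc]⟩

/-- pad with the trivial query `ℓ = fun _ => none` -/
lemma IsQ.mono {T T' : ℕ} {A : (I → Bool) → Matrix J J ℝ} (h : IsQ T A) (hT : T ≤ T') :
    IsQ T' A := by
  induction hT with
  | refl => exact h
  | step _ ih => exact ⟨1, by simp, fun _ => none, A, ih, fun x => by simp [phase]⟩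

lemma IsQ.orth {T : ℕ} {A : (I → Bool) → Matrix J J ℝ} (h : IsQ T A) (x : I → Bool) :
    (A x)ᵀ * A x = 1 := by
  induction T generalizing A with
  | zero => obtain ⟨U, hU, hA⟩ := h; rw [hA, hU]
  | succ T ih =>
    obtain ⟨U, hU, ℓ, B, hB, hA⟩ := h
    rw [hA, transpose_mul, transpose_mul]
    calc (B x)ᵀ * ((phase ℓ x)ᵀ * Uᵀ) * (U * phase ℓ x * B x)
        = (B x)ᵀ * ((phase ℓ x)ᵀ * (Uᵀ * U) * phase ℓ x) * B x := by simp only [Matrix.mul_assoc]
      _ = 1 := by rw [hU, Matrix.mul_one, QB.phase_orth, Matrix.mul_one, ih hB]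

lemma isQ_phase (ℓ : J → Option I) : IsQ 1 (phase ℓ) := by
  exact ⟨1, by simp, ℓ, fun _ => 1, IsQ.const (by simp), fun x => by simp⟩

lemma IsQ.mul {T₁ T₂ : ℕ} {A B : (I → Bool) → Matrix J J ℝ} (hA : IsQ T₁ A) (hB : IsQ T₂ B) :
    IsQ (T₁ + T₂) fun x => A x * B x := by
  induction T₁ generalizing A with
  | zero =>
    obtain ⟨U, hU, hA⟩ := hA
    simp only [hA, Nat.zero_add]
    exact QB.const_mul hU hB
  | succ T ih =>
    obtain ⟨U, hU, ℓ, A', hA', hA⟩ := hA
    rw [show T + 1 + T₂ = T + T₂ + 1 by omega]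
    exact ⟨U, hU, ℓ, fun x => A' x * B x, ih hA', fun x => by
      simp only [hA, Matrix.mul_assoc]⟩

lemma IsQ.transpose {T : ℕ} {A : (I → Bool) → Matrix J J ℝ} (h : IsQ T A) :
    IsQ T fun x => (A x)ᵀ := by
  induction T generalizing A with
  | zero =>
    obtain ⟨U, hU, hA⟩ := h
    exact ⟨Uᵀ, by rw [transpose_transpose]; exact mul_eq_one_comm.1 hU,
      fun x => by simp only [hA]⟩
  | succ T ih =>
    obtain ⟨U, hU, ℓ, B, hB, hA⟩ := h
    have h1 : IsQ 0 fun _ : I → Bool => Uᵀ :=
      IsQ.const (by rw [transpose_transpose]; exact mul_eq_one_comm.1 hU)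
    have := (ih hB).mul ((isQ_phase ℓ).mul h1)
    simp only [hA, transpose_mul, QB.phase_transpose]
    exact this

lemma QB.col_sq {T : ℕ} {A : (I → Bool) → Matrix J J ℝ} (h : IsQ T A) (x : I → Bool) (j₀ : J) :
    ∑ j, A x j j₀ ^ 2 = 1 := by
  have := congrFun (congrFun (h.orth x) j₀) j₀
  simpa [Matrix.mul_apply, sq] using this

/-- block diagonal families -/
lemma QB.bd {ι : Type} [Fintype ι] [DecidableEq ι] {W : ι → Type} [∀ i, Fintype (W i)]
    [∀ i, DecidableEq (W i)] {T : ℕ} {A : ∀ i, (I → Bool) → Matrix (W i) (W i) ℝ}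
    (h : ∀ i, IsQ T (A i)) : IsQ T fun x => blockDiagonal' fun i => A i x := by
  have key : ∀ U : ∀ i, Matrix (W i) (W i) ℝ, (∀ i, (U i)ᵀ * U i = 1) →
      (blockDiagonal' U)ᵀ * blockDiagonal' U = 1 := fun U hU => by
    rw [blockDiagonal'_transpose, ← blockDiagonal'_mul]
    simp only [hU]
    exact blockDiagonal'_one
  induction T generalizing A with
  | zero =>
    choose U hU hA using h
    exact ⟨blockDiagonal' U, key U hU, fun x => by simp only [hA]⟩
  | succ T ih =>
    choose U hU ℓ B hB hA using h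
    refine ⟨blockDiagonal' U, key U hU, fun a => ℓ a.1 a.2, _, ih hB, fun x => ?_⟩
    simp only [hA]
    rw [blockDiagonal'_mul, blockDiagonal'_mul]
    congr 2
    unfold phase
    rw [blockDiagonal'_diagonal]

lemma QB.reindex {J' : Type} [Fintype J'] [DecidableEq J'] (e : J' ≃ J) {T : ℕ}
    {A : (I → Bool) → Matrix J J ℝ} (h : IsQ T A) : IsQ T fun x => (A x).submatrix e e := by
  have key : ∀ U : Matrix J J ℝ, Uᵀ * U = 1 → (U.submatrix e e)ᵀ * U.submatrix e e = 1 :=
    fun U hU => by rw [transpose_submatrix, submatrix_mul_equiv, hU, submatrix_one_equiv]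
  induction T generalizing A with
  | zero =>
    obtain ⟨U, hU, hA⟩ := h
    exact ⟨_, key U hU, fun x => by simp only [hA]⟩
  | succ T ih =>
    obtain ⟨U, hU, ℓ, B, hB, hA⟩ := h
    refine ⟨_, key U hU, ℓ ∘ e, _, ih hB, fun x => ?_⟩
    beta_reduce
    rw [hA, ← submatrix_mul_equiv _ _ _ e, ← submatrix_mul_equiv _ _ _ e]
    congr 2
    unfold phase
    rw [submatrix_diagonal_equiv]
    rfl

lemma QB.perm_orth (σ : Equiv.Perm J) :
    ((1 : Matrix J J ℝ).submatrix id σ)ᵀ * (1 : Matrix J J ℝ).submatrix id σ = 1 := by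
  ext a b
  simp [Matrix.mul_apply, Matrix.one_apply]

/-- `A ⊗ 1` -/
def QB.tens (W : Type) [DecidableEq W] (A : Matrix J J ℝ) :
    Matrix (Σ _ : J, W) (Σ _ : J, W) ℝ :=
  Matrix.of fun a b => if a.2 = b.2 then A a.1 b.1 else 0

lemma QB.isQ_tens (W : Type) [Fintype W] [DecidableEq W] {T : ℕ}
    {A : (I → Bool) → Matrix J J ℝ} (h : IsQ T A) : IsQ T fun x => QB.tens W (A x) := by
  let e : (Σ _ : J, W) ≃ (Σ _ : W, J) :=
    ⟨fun a => ⟨a.2, a.1⟩, fun a => ⟨a.2, a.1⟩, fun _ => rfl, fun _ => rfl⟩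
  convert QB.reindex e (QB.bd (W := fun _ : W => J) fun _ => h) using 2 with x
  ext ⟨a, w⟩ ⟨b, w'⟩
  by_cases hw : w = w'
  · subst hw
    simp [QB.tens, e]
  · simp [QB.tens, e, hw, blockDiagonal'_apply_ne _ _ _ hw]

lemma QB.bd_mul_tens {W : Type} [Fintype W] [DecidableEq W] (B : J → Matrix W W ℝ)
    (A : Matrix J J ℝ) (a b : Σ _ : J, W) :
    (blockDiagonal' B * QB.tens W A) a b = B a.1 a.2 b.2 * A a.1 b.1 := by
  obtain ⟨a, w⟩ := a
  rw [Matrix.mul_apply, Fintype.sum_sigma, Finset.sum_eq_single a]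
  · simp [QB.tens]
  · intro a' _ ha
    simp [blockDiagonal'_apply_ne _ _ _ (Ne.symm ha)]
  · simp

end IsQ

section Realiz
variable {I β γ : Type} [DecidableEq β] [DecidableEq γ]

lemma Realiz.nonneg {T : ℕ} {P : (I → Bool) → β → ℝ} (h : Realiz T P) (x : I → Bool) (b : β) :
    0 ≤ P x b := by
  obtain ⟨J, _, _, A, j₀, out, -, hP⟩ := h
  rw [hP]
  exact Finset.sum_nonneg fun j _ => by split_ifs <;> positivity

lemma Realiz.sum_eq_one [Fintype β] {T : ℕ} {P : (I → Bool) → β → ℝ} (h : Realiz T P)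
    (x : I → Bool) : ∑ b, P x b = 1 := by
  obtain ⟨J, _, _, A, j₀, out, hA, hP⟩ := h
  simp only [hP]
  rw [Finset.sum_comm]
  simp only [Finset.sum_ite_eq, mem_univ, if_true]
  exact QB.col_sq hA x j₀

lemma Realiz.mono {T T' : ℕ} {P : (I → Bool) → β → ℝ} (h : Realiz T P) (hT : T ≤ T') :
    Realiz T' P := by
  obtain ⟨J, i₁, i₂, A, j₀, out, hA, hP⟩ := h
  exact ⟨J, i₁, i₂, A, j₀, out, hA.mono hT, hP⟩

/-- classical post-processing: replace `out` by `g ∘ out` -/
lemma Realiz.map [Fintype β] {T : ℕ} {P : (I → Bool) → β → ℝ} (h : Realiz T P) (g : β → γ) :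
    Realiz T fun x c => ∑ b, if g b = c then P x b else 0 := by
  obtain ⟨J, i₁, i₂, A, j₀, out, hA, hP⟩ := h
  refine ⟨J, i₁, i₂, A, j₀, g ∘ out, hA, fun x c => ?_⟩
  have : ∀ b, (if g b = c then P x b else 0) =
      ∑ j, if out j = b then (if g (out j) = c then A x j j₀ ^ 2 else 0) else 0 := by
    intro b
    rw [hP]
    split_ifs with hb
    · exact Finset.sum_congr rfl fun j _ => by
        split_ifs with h1 h2
        · rfl
        · exact absurd (h1 ▸ hb) h2
        · rfl
    · exact (Finset.sum_eq_zero fun j _ => by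
        split_ifs with h1 h2
        · exact absurd (h1 ▸ h2) hb
        · rfl
        · rfl).symm
  simp only [this]
  rw [Finset.sum_comm]
  simp only [Finset.sum_ite_eq, mem_univ, if_true, Function.comp]

/-- Sequential composition. Workspace `Σ j₁ : J₁, J₂ (out₁ j₁)`, start vector
`⟨j₀, start₂ (out₁ j₀)⟩`. First apply `A₁` on the subspace spanned by the `⟨j₁, start₂ (out₁ j₁)⟩`
(identity on the other basis vectors; extension of an `IsQ` family along an injection, queries
labelled `none` off the range), then `Matrix.blockDiagonal' fun j₁ => A₂ (out₁ j₁) x`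
(a block diagonal family of `IsQ T` families is `IsQ T`: induction on `T`, `choose`). The amplitude at
`⟨j₁, j₂⟩` is `A₂ (out₁ j₁) x j₂ start * A₁ x j₁ j₀`. -/
lemma Realiz.bind [Fintype β] {T₁ T₂ : ℕ} {P : (I → Bool) → β → ℝ} {Q : β → (I → Bool) → γ → ℝ}
    (hP : Realiz T₁ P) (hQ : ∀ b, Realiz T₂ (Q b)) :
    Realiz (T₁ + T₂) fun x c => ∑ b, P x b * Q b x c := by
  obtain ⟨J₁, _, _, A₁, j₀, out₁, hA₁, hP⟩ := hP
  choose J₂ i₁ i₂ A₂ st out₂ hA₂ hQ using hQ
  let W := Σ b : β, J₂ b
  let s₀ : W := ⟨out₁ j₀, st _⟩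
  let B : (I → Bool) → Matrix W W ℝ := fun x => blockDiagonal' fun b => A₂ b x
  let σ : β → Equiv.Perm W := fun b => Equiv.swap s₀ ⟨b, st b⟩
  let B' : β → (I → Bool) → Matrix W W ℝ := fun b x => B x * (1 : Matrix W W ℝ).submatrix id (σ b)
  have hB' : ∀ b, IsQ T₂ (B' b) := fun b =>
    (QB.bd hA₂).mul (IsQ.const (QB.perm_orth (σ b)))
  have hB'e : ∀ b x w, B' b x w s₀ = B x w ⟨b, st b⟩ := fun b x w => by
    simp [B', σ, Matrix.mul_apply, Matrix.one_apply]
  refine ⟨Σ _ : J₁, W, inferInstance, inferInstance,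
    fun x => blockDiagonal' (fun j₁ => B' (out₁ j₁) x) * QB.tens W (A₁ x), ⟨j₀, s₀⟩,
    fun a => out₂ a.2.1 a.2.2, ?_, fun x c => ?_⟩
  · rw [add_comm]
    exact (QB.bd fun j₁ => hB' (out₁ j₁)).mul (QB.isQ_tens W hA₁)
  · simp only [QB.bd_mul_tens, hB'e]
    rw [Fintype.sum_sigma]
    simp only [hP, Finset.sum_mul]
    rw [Finset.sum_comm]
    refine Finset.sum_congr rfl fun j₁ _ => ?_
    simp only [ite_mul, zero_mul, Finset.sum_ite_eq, mem_univ, if_true]
    rw [Fintype.sum_sigma, Finset.sum_eq_single (out₁ j₁), hQ, Finset.mul_sum]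
    · refine Finset.sum_congr rfl fun j₂ _ => ?_
      simp only [B, blockDiagonal'_apply_eq]
      split_ifs
      · ring
      · simp
    · intro b _ hb
      refine Finset.sum_eq_zero fun j₂ _ => ?_
      simp only [B, blockDiagonal'_apply_ne _ _ _ hb]
      simp
    · simp

/-- A fixed distribution costs nothing: `J = β`, an orthogonal matrix whose column `j₀` is
`v = fun b => √(p b)` (Householder reflection `1 - 2 u uᵀ / ‖u‖²`, `u = e_{j₀} - v`; the identity
when `u = 0`). -/
lemma realiz_dist [Fintype β] {p : β → ℝ} (h0 : ∀ b, 0 ≤ p b) (h1 : ∑ b, p b = 1) :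
    Realiz 0 fun _ : I → Bool => p := by
  have hne : Nonempty β := by
    by_contra hc
    rw [not_nonempty_iff] at hc
    simp at h1
  obtain ⟨b₀⟩ := hne
  let u : β → ℝ := fun b => (if b = b₀ then 1 else 0) + √(p b)
  let c : ℝ := 2 + 2 * √(p b₀)
  have hc : 0 < c := by positivity
  have hu : ∑ b, u b * u b = c := by
    have : ∀ b, u b * u b = (if b = b₀ then 1 + 2 * √(p b) else 0) + p b := fun b => by
      have := Real.mul_self_sqrt (h0 b)
      simp only [u]
      split_ifs <;> nlinarith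
    simp only [this, Finset.sum_add_distrib, Finset.sum_ite_eq', mem_univ, if_true, h1, c]
    ring
  let H : Matrix β β ℝ := 1 - (2 / c) • vecMulVec u u
  have hH : Hᵀ * H = 1 := by
    have h2 : vecMulVec u u * vecMulVec u u = c • vecMulVec u u := by
      ext a b
      simp only [Matrix.mul_apply, vecMulVec_apply, Matrix.smul_apply, smul_eq_mul]
      rw [← hu, Finset.sum_mul]
      exact Finset.sum_congr rfl fun k _ => by ring
    have h3 : Hᵀ = H := by
      simp only [H, transpose_sub, transpose_one, transpose_smul, transpose_vecMulVec]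
    rw [h3]
    simp only [H, Matrix.sub_mul, Matrix.mul_sub, Matrix.one_mul, Matrix.mul_one, Matrix.smul_mul,
      Matrix.mul_smul, h2, smul_smul, smul_sub]
    rw [show 2 / c * (2 / c * c) = 2 / c + 2 / c by field_simp; ring, add_smul]
    abel
  refine ⟨β, inferInstance, inferInstance, fun _ => H, b₀, id, IsQ.const hH, fun x b => ?_⟩
  simp only [id, Finset.sum_ite_eq', mem_univ, if_true]
  have h4 : H b b₀ = -√(p b) := by
    have h5 : u b₀ = c / 2 := by simp only [u, c, if_true]; ring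
    simp only [H, Matrix.sub_apply, Matrix.smul_apply, vecMulVec_apply, smul_eq_mul, h5,
      Matrix.one_apply]
    simp only [u]
    field_simp
    ring
  rw [h4, neg_sq, Real.sq_sqrt (h0 b)]

/-- Hadamard test: workspace `Bool × J` (or `Σ _ : Bool, J`), `H ⊗ 1`, controlled `V`, `H ⊗ 1`,
output the control bit; `‖(e + sg o • V e) / 2‖² = (1 + sg o * V j₀ j₀) / 2`. -/
lemma hadTest {J : Type} [Fintype J] [DecidableEq J] {T : ℕ} {V : (I → Bool) → Matrix J J ℝ}
    (hV : IsQ T V) (j₀ : J) : Realiz T fun x (o : Bool) => (1 + sg o * V x j₀ j₀) / 2 := by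
  let H : Matrix Bool Bool ℝ := Matrix.of fun a b => (if a && b then -1 else 1) / √2
  have h2 : √2 * √2 = 2 := Real.mul_self_sqrt (by norm_num)
  have h2' : (√2 : ℝ) ≠ 0 := by positivity
  have hH : Hᵀ * H = 1 := by
    ext a b
    cases a <;> cases b <;> simp [H, Matrix.mul_apply] <;> field_simp <;> nlinarith
  have hHq : IsQ 0 fun _ : I → Bool => QB.tens J H := QB.isQ_tens J (IsQ.const hH)
  let C : Bool → (I → Bool) → Matrix J J ℝ := fun c x => if c then V x else 1
  have hC : ∀ c, IsQ T (C c) := fun c => by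
    cases c
    · exact (IsQ.const (U := 1) (by simp)).mono (Nat.zero_le T)
    · exact hV
  have hq := hHq.mul ((QB.bd hC).mul hHq)
  rw [Nat.zero_add, Nat.add_zero] at hq
  refine ⟨Σ _ : Bool, J, inferInstance, inferInstance, _, ⟨false, j₀⟩, fun a => a.1, hq,
    fun x o => ?_⟩
  have hamp : ∀ (o : Bool) (j : J), (QB.tens J H * (blockDiagonal' (fun c => C c x) * QB.tens J H))
      ⟨o, j⟩ ⟨false, j₀⟩ = ((if j = j₀ then 1 else 0) + sg o * V x j j₀) / 2 := by
    intro o j
    rw [Matrix.mul_apply, Fintype.sum_sigma]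
    simp only [QB.bd_mul_tens]
    simp only [QB.tens, Matrix.of_apply, ite_mul, zero_mul, Finset.sum_ite_eq,
      mem_univ, if_true, Fintype.sum_bool]
    cases o <;> simp [H, C, Matrix.one_apply] <;> field_simp <;> rw [Real.sq_sqrt (by norm_num)] <;>
      split_ifs <;> ring
  rw [Fintype.sum_sigma, Finset.sum_eq_single o]
  · simp only [if_true, hamp]
    have h3 : ∀ j, (((if j = j₀ then 1 else 0) + sg o * V x j j₀) / 2) ^ 2 =
        ((if j = j₀ then 1 + 2 * sg o * V x j j₀ else 0) + V x j j₀ ^ 2) / 4 := fun j => by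
      have := sg_sq o
      split_ifs
      · linear_combination (V x j j₀ ^ 2 / 4) * this
      · linear_combination (V x j j₀ ^ 2 / 4) * this
    simp only [h3]
    rw [← Finset.sum_div, Finset.sum_add_distrib, QB.col_sq hV x j₀]
    simp only [Finset.sum_ite_eq', mem_univ, if_true]
    ring
  · intro b _ hb
    simp [hb]
  · simp

lemma QB.realiz_pure (c : β) : Realiz 0 fun (_ : I → Bool) b => if c = b then (1 : ℝ) else 0 :=
  ⟨Unit, inferInstance, inferInstance, fun _ => 1, (), fun _ => c, IsQ.const (by simp),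
    fun x b => by simp⟩

lemma QB.realiz_equiv {T : ℕ} {P : (I → Bool) → β → ℝ} (h : Realiz T P) (e : β ≃ γ) :
    Realiz T fun x c => P x (e.symm c) := by
  obtain ⟨J, i₁, i₂, A, j₀, out, hA, hP⟩ := h
  refine ⟨J, i₁, i₂, A, j₀, e ∘ out, hA, fun x c => ?_⟩
  simp only [hP, Function.comp, Equiv.eq_symm_apply]

lemma QB.realiz_pair [Fintype β] [Fintype γ] {T₁ T₂ : ℕ} {P : (I → Bool) → β → ℝ}
    {Q : (I → Bool) → γ → ℝ} (hP : Realiz T₁ P) (hQ : Realiz T₂ Q) :
    Realiz (T₁ + T₂) fun x (p : β × γ) => P x p.1 * Q x p.2 := by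
  convert hP.bind fun b => hQ.map fun c => (b, c) using 3 with x p
  obtain ⟨b, c⟩ := p
  rw [Finset.sum_eq_single b]
  · simp
  · intro b' _ hb
    simp [hb]
  · simp

/-- Decision trees are quantum algorithms. One bit is read by `hadTest` with `J = Unit`,
`V = phase fun _ => some i`; then induction on the depth with `bind`. -/
lemma DT.realiz [DecidableEq I] {d : ℕ} {g : (I → Bool) → β} (h : DT d g) :
    Realiz d fun x b => if g x = b then 1 else 0 := by
  induction d generalizing g with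
  | zero =>
    obtain ⟨c, hc⟩ := h
    simpa only [hc] using QB.realiz_pure (I := I) c
  | succ d ih =>
    rcases h with ⟨c, hc⟩ | ⟨i, h⟩
    · simpa only [hc] using (QB.realiz_pure (I := I) c).mono (Nat.zero_le _)
    · have h1 := hadTest (isQ_phase (J := Unit) fun _ => some i) ()
      have h2 := h1.bind fun b => ih (h b)
      rw [add_comm]
      convert h2 using 3 with x c
      rw [Fintype.sum_bool]
      cases hx : x i
      · have : Function.update x i false = x := by rw [← hx, update_eq_self]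
        simp [phase, hx, this]
      · have : Function.update x i true = x := by rw [← hx, update_eq_self]
        simp [phase, hx, this]

/-- independent repetitions (induction over `Fin k` with `bind`/`map`, then transport along
`Fintype.equivFin C`) -/
lemma Realiz.pi {C : Type} [Fintype C] [DecidableEq C] [Fintype β] {T : ℕ}
    {P : C → (I → Bool) → β → ℝ} (h : ∀ c, Realiz T (P c)) :
    Realiz (Fintype.card C * T) fun x (o : C → β) => ∏ c, P c x (o c) := by
  have key : ∀ (k : ℕ) (P : Fin k → (I → Bool) → β → ℝ), (∀ c, Realiz T (P c)) →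
      Realiz (k * T) fun x (o : Fin k → β) => ∏ c, P c x (o c) := by
    intro k
    induction k with
    | zero =>
      intro P _
      have := QB.realiz_pure (I := I) (β := Fin 0 → β) fun i => i.elim0
      rw [Nat.zero_mul]
      convert this using 3 with x o
      rw [if_pos (Subsingleton.elim _ _)]; simp
    | succ k ih =>
      intro P hP
      have h1 := QB.realiz_equiv (QB.realiz_pair (hP 0) (ih (fun c => P c.succ) fun c => hP _))
        (Fin.consEquiv fun _ => β)
      rw [show (k + 1) * T = T + k * T by ring]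
      convert h1 using 3 with x o
      rw [Fin.prod_univ_succ]
      rfl
  let e := Fintype.equivFin C
  have h1 := QB.realiz_equiv (key _ (fun c => P (e.symm c)) fun c => h _)
    (Equiv.arrowCongr e.symm (Equiv.refl β))
  convert h1 using 3 with x o
  rw [← e.symm.prod_comp]
  rfl

end Realiz

end Crest.Agent.R350
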