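import Crest.Agent.R350.Defs

/-! Row 350, part A3: from `Realiz` to the model of the Prelude. -/

set_option autoImplicit false
open Finset Function Matrix Crest.MathPhysics.Query
open scoped Kronecker

namespace Crest.Agent.R350

namespace QBridge

variable {J : Type} [Fintype J] [DecidableEq J] {n w : ℕ}

/-- embedding of real vectors on `J` into the state space -/
def emb (i₀ : Fin n) (g : J ≃ Fin w) (ψ : J → ℝ) : QIdx n w → ℂ :=
  fun e => if e.1 = i₀ ∧ e.2.1 = false then (ψ (g.symm e.2.2) : ℂ) else 0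

/-- a real matrix on `J` acting on the work register -/
def lift (n : ℕ) (g : J ≃ Fin w) (U : Matrix J J ℝ) : Matrix (QIdx n w) (QIdx n w) ℂ :=
  (1 : Matrix (Fin n) (Fin n) ℂ) ⊗ₖ ((1 : Matrix Bool Bool ℂ) ⊗ₖ
    ((U.map (fun r : ℝ => (r : ℂ))).submatrix g.symm g.symm))

lemma lift_unitary (g : J ≃ Fin w) {U : Matrix J J ℝ} (hU : Uᵀ * U = 1) :
    lift n g U ∈ Matrix.unitaryGroup (QIdx n w) ℂ := by
  refine kronecker_mem_unitary (one_mem _) (kronecker_mem_unitary (one_mem _) ?_)
  refine Matrix.mem_unitaryGroup_iff'.2 ?_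
  rw [star_eq_conjTranspose, conjTranspose_submatrix, submatrix_mul_equiv]
  have : (U.map (fun r : ℝ => (r : ℂ)))ᴴ * U.map (fun r : ℝ => (r : ℂ)) = 1 := by
    ext a b
    have := congrFun (congrFun hU a) b
    simp only [mul_apply, transpose_apply, one_apply] at this
    simp only [mul_apply, conjTranspose_apply, map_apply, one_apply, Complex.star_def,
      Complex.conj_ofReal]
    rw [← Complex.ofReal_inj] at this
    push_cast at this
    rw [this]
    split_ifs <;> simp
  rw [this, submatrix_one_equiv]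

lemma lift_mulVec (i₀ : Fin n) (g : J ≃ Fin w) (U : Matrix J J ℝ) (ψ : J → ℝ) :
    lift n g U *ᵥ emb i₀ g ψ = emb i₀ g (U *ᵥ ψ) := by
  ext ⟨i, b, z⟩
  simp only [lift, emb, mulVec, dotProduct, Fintype.sum_prod_type, kroneckerMap_apply, one_apply,
    submatrix_apply, map_apply]
  rw [Finset.sum_eq_single i, Finset.sum_eq_single b]
  · by_cases h : i = i₀ ∧ b = false
    · simp only [h, and_self, if_true, one_mul]
      push_cast
      exact (Equiv.sum_comp g.symm (fun j => (U (g.symm z) j : ℂ) * (ψ j : ℂ)))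
    · simp [h]
  · intro b' _ hb; simp [Ne.symm hb]
  · simp
  · intro i' _ hi; simp [Ne.symm hi]
  · simp

/-- entries of the Hadamard matrix -/
noncomputable def hd (b b' : Bool) : ℂ := (if b && b' then -1 else 1) * ((√2)⁻¹ : ℝ)

lemma hd_unitary : (Matrix.of hd) ∈ unitary (Matrix Bool Bool ℂ) := by
  refine Matrix.mem_unitaryGroup_iff'.2 ?_
  have h2 : ((√2 : ℝ) : ℂ)⁻¹ * ((√2 : ℝ) : ℂ)⁻¹ = 1 / 2 := by
    rw [← mul_inv, ← Complex.ofReal_mul, Real.mul_self_sqrt (by norm_num)]
    norm_num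
  ext a b
  cases a <;> cases b <;>
    simp [mul_apply, star_eq_conjTranspose, conjTranspose_apply, hd, h2] <;> norm_num

/-- the Hadamard gate on the target bit -/
noncomputable def had (n w : ℕ) : Matrix (QIdx n w) (QIdx n w) ℂ :=
  (1 : Matrix (Fin n) (Fin n) ℂ) ⊗ₖ ((Matrix.of hd) ⊗ₖ (1 : Matrix (Fin w) (Fin w) ℂ))

lemma had_unitary : had n w ∈ Matrix.unitaryGroup (QIdx n w) ℂ :=
  kronecker_mem_unitary (one_mem _) (kronecker_mem_unitary hd_unitary (one_mem _))

lemma had_mulVec (v : QIdx n w → ℂ) (i : Fin n) (b : Bool) (z : Fin w) :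
    (had n w *ᵥ v) (i, b, z) = ∑ b', hd b b' * v (i, b', z) := by
  simp only [had, mulVec, dotProduct, Fintype.sum_prod_type, kroneckerMap_apply, one_apply,
    of_apply]
  rw [Finset.sum_eq_single i]
  · refine Finset.sum_congr rfl fun b' _ => ?_
    rw [Finset.sum_eq_single z]
    · simp
    · intro z' _ hz; simp [Ne.symm hz]
    · simp
  · intro i' _ hi; simp [Ne.symm hi]
  · simp

/-- the permutation that moves `(i₀, false)` to the place of the label -/
def prm (i₀ : Fin n) (k : Fin w → Fin n) (c : Fin w → Bool) : Equiv.Perm (QIdx n w) :=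
  Function.Involutive.toPerm (fun e => (Equiv.swap i₀ (k e.2.2) e.1, xor e.2.1 (c e.2.2), e.2.2))
    (by rintro ⟨i, b, z⟩; simp)

lemma perm_unitary {K : Type} [Fintype K] [DecidableEq K] (σ : Equiv.Perm K) :
    σ.permMatrix ℂ ∈ Matrix.unitaryGroup K ℂ := by
  refine Matrix.mem_unitaryGroup_iff'.2 ?_
  rw [star_eq_conjTranspose, conjTranspose_permMatrix, ← permMatrix_mul]
  simp

/-- the unitary that prepares the query -/
noncomputable def prep (i₀ : Fin n) (k : Fin w → Fin n) (c : Fin w → Bool) :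
    Matrix (QIdx n w) (QIdx n w) ℂ := had n w * (prm i₀ k c).permMatrix ℂ

lemma prep_unitary (i₀ : Fin n) (k : Fin w → Fin n) (c : Fin w → Bool) :
    prep i₀ k c ∈ Matrix.unitaryGroup (QIdx n w) ℂ := mul_mem had_unitary (perm_unitary _)

lemma prep_mulVec (i₀ : Fin n) (g : J ≃ Fin w) (k : Fin w → Fin n) (c : Fin w → Bool)
    (ψ : J → ℝ) (i : Fin n) (b : Bool) (z : Fin w) :
    (prep i₀ k c *ᵥ emb i₀ g ψ) (i, b, z) =
      if i = k z then hd b (c z) * (ψ (g.symm z) : ℂ) else 0 := by
  rw [prep, ← mulVec_mulVec, had_mulVec, permMatrix_mulVec]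
  have hs : Equiv.swap i₀ (k z) i = i₀ ↔ i = k z := by
    rw [Equiv.swap_apply_eq_iff]; simp
  simp only [Function.comp_apply, prm, Function.Involutive.coe_toPerm, emb, hs]
  by_cases h : i = k z
  · cases hc : c z <;> simp [h]
  · simp [h]

lemma oracle_prep {I : Type} (e : Fin n ≃ I) (i₀ : Fin n) (g : J ≃ Fin w) (ℓ : J → Option I)
    (x : Fin n → Bool) (ψ : J → ℝ) :
    oracle x (prep i₀ (fun z => ((ℓ (g.symm z)).map e.symm).getD i₀)
        (fun z => (ℓ (g.symm z)).isSome) *ᵥ emb i₀ g ψ) =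
      prep i₀ (fun z => ((ℓ (g.symm z)).map e.symm).getD i₀)
        (fun z => (ℓ (g.symm z)).isSome) *ᵥ emb i₀ g (phase ℓ (fun i => x (e.symm i)) *ᵥ ψ) := by
  ext ⟨i, b, z⟩
  simp only [oracle]
  rw [prep_mulVec, prep_mulVec]
  simp only [phase, mulVec_diagonal]
  rcases hl : ℓ (g.symm z) with _ | a
  · simp [hd]
  · simp only [Option.map_some, Option.getD_some, Option.isSome_some, Option.elim_some]
    split_ifs with h
    · subst h
      cases b <;> cases x (e.symm a) <;> simp [hd]
    · rfl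

lemma stateAfter_congr {U U' : ℕ → Matrix (QIdx n w) (QIdx n w) ℂ} (x : Fin n → Bool)
    (ψ₀ : QIdx n w → ℂ) (t : ℕ) (h : ∀ s ≤ t, U s = U' s) :
    stateAfter U x ψ₀ t = stateAfter U' x ψ₀ t := by
  induction t with
  | zero => simp [stateAfter, h 0 le_rfl]
  | succ t ih =>
    simp only [stateAfter]
    rw [h (t + 1) le_rfl, ih fun s hs => h s (by omega)]

lemma simulate {I : Type} (e : Fin n ≃ I) (i₀ : Fin n) (g : J ≃ Fin w) (ψ : J → ℝ) {T : ℕ}
    {A : (I → Bool) → Matrix J J ℝ} (hA : IsQ T A) (W : Matrix (QIdx n w) (QIdx n w) ℂ)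
    (hW : W ∈ Matrix.unitaryGroup (QIdx n w) ℂ) :
    ∃ U : ℕ → Matrix (QIdx n w) (QIdx n w) ℂ, (∀ t, U t ∈ Matrix.unitaryGroup (QIdx n w) ℂ) ∧
      ∀ x : Fin n → Bool, stateAfter U x (emb i₀ g ψ) T =
        W *ᵥ emb i₀ g (A (fun i => x (e.symm i)) *ᵥ ψ) := by
  induction T generalizing A W with
  | zero =>
    obtain ⟨U, hU, hA⟩ := hA
    refine ⟨fun _ => W * lift n g U, fun _ => mul_mem hW (lift_unitary g hU), fun x => ?_⟩
    simp only [stateAfter, hA]
    rw [← mulVec_mulVec, lift_mulVec]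
  | succ T ih =>
    obtain ⟨U', hU', ℓ, B, hB, hA⟩ := hA
    set V := prep i₀ (fun z => ((ℓ (g.symm z)).map e.symm).getD i₀)
      (fun z => (ℓ (g.symm z)).isSome) with hV
    have hVu : V ∈ Matrix.unitaryGroup (QIdx n w) ℂ := prep_unitary _ _ _
    obtain ⟨U, hU, hs⟩ := ih hB V hVu
    refine ⟨Function.update U (T + 1) (W * lift n g U' * star V), fun t => ?_, fun x => ?_⟩
    · by_cases ht : t = T + 1
      · subst ht
        rw [update_self]
        exact mul_mem (mul_mem hW (lift_unitary g hU')) (Unitary.star_mem hVu)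
      · rw [update_of_ne ht]; exact hU t
    · simp only [stateAfter, update_self]
      rw [stateAfter_congr (U' := U) x _ T (fun s hs => update_of_ne (by omega) _ _), hs, hV,
        oracle_prep, ← hV, mulVec_mulVec, mul_assoc, hVu.1, mul_one, ← mulVec_mulVec, lift_mulVec,
        hA, mulVec_mulVec, mulVec_mulVec]

lemma sum_emb (i₀ : Fin n) (g : J ≃ Fin w) (ψ : J → ℝ) (p : J → Prop) [DecidablePred p] :
    (∑ e : QIdx n w, if p (g.symm e.2.2) then ‖emb i₀ g ψ e‖ ^ 2 else 0) =
      ∑ j, if p j then ψ j ^ 2 else 0 := by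
  simp only [Fintype.sum_prod_type, emb]
  rw [Finset.sum_eq_single i₀, Finset.sum_eq_single false]
  · simp only [and_self, if_true, Complex.norm_real, Real.norm_eq_abs, sq_abs]
    exact Equiv.sum_comp g.symm (fun j => if p j then ψ j ^ 2 else 0)
  · intro b _ hb; simp [hb]
  · simp
  · intro i _ hi; simp [hi]
  · simp

end QBridge

open QBridge in
/-- Let `J ≃ Fin w`, `K = QIdx n w`, `i₀ : Fin n`, and embed `ψ : J → ℝ` as the vector supported on
the basis states `(i₀, false, j)`. With `Had` the real Hadamard matrix on the middle bit,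
`Had * O_x * Had` is the diagonal matrix with entry `if b then sg (x i) else 1` at `(i, b, z)`.
For a labelling `ℓ : J → Option I` let `π_ℓ` be the permutation of `K` which, in the fibre of
`z = j`, swaps `(i₀, false)` with `(e.symm i, true)` if `ℓ j = some i` (identity if `ℓ j = none`);
then `π_ℓ⁻¹ * Had * O_x * Had * π_ℓ` acts on embedded vectors as `phase ℓ`. Induction on `T`:
for `IsQ T A` and any real orthogonal `W` on `K` there are unitaries `U t` with
`stateAfter U x (embed e_{j₀}) T = W *ᵥ embed (column j₀ of A x)` (note that `stateAfter U x ψ t`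
depends only on `U 0, …, U t`; use `Function.update U (T+1) _`). Finish with `W = 1`,
`out' (i, b, z) = out z`. -/
theorem Realiz.quantumComputes {I : Type} [Nonempty I] {n : ℕ} (e : Fin n ≃ I) {T : ℕ}
    {P : (I → Bool) → Bool → ℝ} (h : Realiz T P) {F : (I → Bool) → Bool}
    (hF : ∀ x, 2 / 3 ≤ P x (F x)) :
    QuantumComputes (fun x : Fin n → Bool => F fun i => x (e.symm i)) T := by
  obtain ⟨J, _, _, A, j₀, out, hA, hP⟩ := h
  let g : J ≃ Fin (Fintype.card J) := Fintype.equivFin J
  let i₀ : Fin n := e.symm (Classical.arbitrary I)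
  obtain ⟨U, hU, hs⟩ := simulate e i₀ g (Pi.single j₀ 1) hA 1 (one_mem _)
  refine ⟨Fintype.card J, U, emb i₀ g (Pi.single j₀ 1), fun k => out (g.symm k.2.2), hU, ?_,
    fun x => ?_⟩
  · have := sum_emb i₀ g (Pi.single j₀ 1) (fun _ => True)
    simp only [if_true] at this
    rw [this, Finset.sum_eq_single j₀]
    · simp
    · intro j _ hj; simp [hj]
    · simp
  · rw [hs, one_mulVec, sum_emb i₀ g _ (fun j => out j = F fun i => x (e.symm i))]
    refine (hF fun i => x (e.symm i)).trans (le_of_eq ?_)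
    rw [hP]
    simp [mulVec_single]

end Crest.Agent.R350
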